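import Vale.Agent.P270L.T.Hg

/-!
# P270L, block T, row DG: the degree of a free system
-/

open Set Function Filter
open Vale.Agent.P297

namespace Vale.Agent.P270L

namespace DgH

variable {k K ι σ σ' : Type} [Field k] [Field K] [Algebra k K] {x : ι → K}

theorem gen (x : ι → K) (j i : ι) : x j / x i ∈ ch k x i := Algebra.subset_adjoin ⟨j, rfl⟩

/-- the change of the chart -/
theorem chg (hx : ∀ i, x i ≠ 0) (i : ι) {a : ι} {f : K} (h : f ∈ ch k x a) :
    ∀ᶠ c in atTop, f * (x a / x i) ^ c ∈ ch k x i := by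
  suffices ∃ c, f * (x a / x i) ^ c ∈ ch k x i from this.elim fun c hc =>
    eventually_atTop.2 ⟨c, fun d hd => by
      rw [← Nat.add_sub_cancel' hd, pow_add, ← mul_assoc]
      exact mul_mem hc (pow_mem (gen x a i) _)⟩
  induction h using Algebra.adjoin_induction with
  | mem f h =>
    obtain ⟨j, rfl⟩ := h
    exact ⟨1, by simpa only [pow_one, div_mul_div_cancel₀ (hx a)] using gen x j i⟩
  | algebraMap r => exact ⟨0, by simp⟩
  | add f g _ _ hf hg =>
    obtain ⟨c, hc⟩ := hf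
    obtain ⟨d, hd⟩ := hg
    refine ⟨c + d, ?_⟩
    convert add_mem (mul_mem hc (pow_mem (gen x a i) d)) (mul_mem hd (pow_mem (gen x a i) c))
      using 1
    ring
  | mul f g _ _ hf hg =>
    obtain ⟨c, hc⟩ := hf
    obtain ⟨d, hd⟩ := hg
    refine ⟨c + d, ?_⟩
    convert mul_mem hc hd using 1
    ring

/-- the graph of the extension of `φ` to the local ring -/
def gr {L : Type} [Field L] [Algebra k L] {A : Subalgebra k K} (φ : A →ₐ[k] L) :
    Subalgebra k (K × L) where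
  carrier := {u | ∃ a b : A, φ b ≠ 0 ∧ u.1 * b = a ∧ u.2 * φ b = φ a}
  mul_mem' := fun ⟨a, b, h1, h2, h3⟩ ⟨a', b', k1, k2, k3⟩ => ⟨a * a', b * b', by simp [h1, k1],
    by simp only [MulMemClass.coe_mul, ← h2, ← k2, Prod.fst_mul]; ring,
    by simp only [map_mul, ← h3, ← k3, Prod.snd_mul]; ring⟩
  add_mem' := fun ⟨a, b, h1, h2, h3⟩ ⟨a', b', k1, k2, k3⟩ => ⟨a * b' + a' * b, b * b',
    by simp [h1, k1],
    by simp only [MulMemClass.coe_mul, AddMemClass.coe_add, ← h2, ← k2, Prod.fst_add]; ring,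
    by simp only [map_mul, map_add, ← h3, ← k3, Prod.snd_add]; ring⟩
  algebraMap_mem' r := ⟨algebraMap k A r, 1, by simp, by simp, by simp⟩

theorem gr_fun {L : Type} [Field L] [Algebra k L] {A : Subalgebra k K} {φ : A →ₐ[k] L} {f : K}
    {v v' : L} (h : (f, v) ∈ gr φ) (h' : (f, v') ∈ gr φ) : v = v' := by
  obtain ⟨a, b, h1, h2, h3⟩ := sub_mem h h'
  obtain rfl : a = 0 := Subtype.ext (by simpa using h2.symm)
  simpa [h1, sub_eq_zero] using h3

variable [IsAlgClosed k] [CharZero k] [Fintype σ] [Fintype σ']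

theorem eqr (p : Cv k x) (s : σ → K) (z : σ → p.L) (h : p.Rs s z) : p.dg s = ht k z := by
  rw [Cv.dg, dif_pos ⟨z, h⟩]
  obtain ⟨z0, τ, h1, h2⟩ := Exists.choose_spec ⟨z, h⟩
  generalize Exists.choose _ = w at z0 h2
  obtain ⟨w0, τ', k1, k2⟩ := h
  obtain ⟨m, hm⟩ := ne_iff.1 w0
  have e : w = fun l => w m / z m * z l := funext fun l => by
    rw [div_mul_eq_mul_div, eq_div_iff hm, h2, h2, k2, k2, ← map_mul, ← map_mul]
    exact congrArg _ (Subtype.ext (by simp only [MulMemClass.coe_mul]; ring))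
  rw [e]
  exact hg.smul k p.L inferInstance σ z _ fun c => z0 (by rw [e]; simp [c, ← Pi.zero_def])

omit [IsAlgClosed k] [CharZero k] in
theorem exr (p : Cv k x) (s : σ → K) (h : Free k x s) : ∃ z, p.Rs s z := by
  obtain ⟨t, h1, h2⟩ := h p.i
  obtain ⟨j, -, hj⟩ := Finset.exists_ne_zero_of_sum_ne_zero (s := Finset.univ)
    (f := fun j => p.φ ⟨_, h1 j j⟩) (by
      rw [← map_sum, show (∑ j, ⟨_, h1 j j⟩ : ch k x p.i) = 1 from Subtype.ext (by simpa using h2)]
      simp)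
  exact ⟨_, ne_iff.2 ⟨j, hj⟩, t j, h1 j, fun _ => rfl⟩

end DgH

open DgH HgH in
/-- row DG -/
theorem dg : DG where
  eq k K _ _ _ _ _ ι σ _ x p s z := eqr p s z
  ex k K _ _ _ _ _ ι σ _ x p s := exr p s
  cmp k K _ _ _ _ _ ι σ _ _ x s hx h := by
    classical
    choose t t1 t2 using h
    obtain ⟨c, hc⟩ := (eventually_all.2 fun i => eventually_all.2 fun a => eventually_all.2
      fun j => eventually_all.2 fun l => chg hx i (t1 a j l)).exists
    refine ⟨ι × σ, inferInstance, fun m => t m.1 m.2 * x m.1 ^ c, c, fun i => ⟨fun l m => ?_,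
      fun l m => if m = (i, l) then 1 else 0, fun l m => by beta_reduce; split_ifs <;> simp,
      ?_⟩⟩
    · convert hc i m.1 m.2 l using 1
      ring
    · simp [← mul_assoc (s _), mul_div_assoc, hx i, mul_comm (s _) (t _ _), t2]
  add k K _ _ _ _ _ ι σ σ' _ _ _ x s s' c hx h := by
    choose h1 a a1 a2 using h
    have f1 : Free k x s := fun i => ⟨fun j => ∑ m, a i j m * s' m / x i ^ c, fun j l => by
      rw [Finset.sum_mul]
      refine sum_mem fun m _ => ?_
      convert mul_mem (a1 i j m) (h1 i l m) using 1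
      ring, (Finset.sum_congr rfl fun j _ => by
        rw [Finset.sum_mul]
        exact Finset.sum_congr rfl fun m _ => by ring).trans (a2 i)⟩
    have f2 : Free k x s' := fun i => ⟨fun j => ∑ m, a i m j * s m / x i ^ c, fun j l => by
      rw [Finset.sum_mul]
      refine sum_mem fun m _ => ?_
      convert mul_mem (a1 i m j) (h1 i m l) using 1
      ring, (Finset.sum_congr rfl fun j _ => by
        rw [Finset.sum_mul]
        exact Finset.sum_congr rfl fun m _ => by ring).trans (Finset.sum_comm.trans (a2 i))⟩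
    refine ⟨f1, f2, fun p => ?_⟩
    obtain ⟨z, hz⟩ := exr p s f1
    obtain ⟨z', hz'⟩ := exr p s' f2
    let y : ι → p.L := fun j => p.φ ⟨_, gen x j p.i⟩
    have y1 : y p.i = 1 := (congrArg p.φ (Subtype.ext (div_self (hx _)))).trans (map_one _)
    have y0 : y ≠ 0 := ne_iff.2 ⟨p.i, y1 ▸ one_ne_zero⟩
    let w : σ × σ' → p.L := fun l => p.φ ⟨_, h1 p.i l.1 l.2⟩
    have key : ∀ P : PlaceOver k p.L, w ≠ 0 ∧ mx P.1 w = c * mx P.1 y := fun P => by
      obtain ⟨b, b0, e, b1⟩ := top P.1 y0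
      have g1 : ∀ f ∈ ch k x b, ∃ v, P.1.val v ≤ 1 ∧ (f, v) ∈ gr p.φ := fun f hf => by
        induction hf using Algebra.adjoin_induction with
        | mem f h =>
          obtain ⟨j, rfl⟩ := h
          exact ⟨y j / y b, by rw [map_div₀]; exact div_le_one_of_le₀ (b1 j) zero_le,
            ⟨_, gen x j p.i⟩, ⟨_, gen x b p.i⟩, b0, div_mul_div_cancel₀ (hx b),
            div_mul_cancel₀ _ b0⟩
        | algebraMap r => exact ⟨_, (P.1.mem_ring_iff _).1 (P.2 r), algebraMap_mem _ r⟩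
        | add f g _ _ hf hg =>
          exact let ⟨_, c1, c2⟩ := hf; let ⟨_, d1, d2⟩ := hg
            ⟨_, P.1.val.map_add_le c1 d1, add_mem c2 d2⟩
        | mul f g _ _ hf hg =>
          exact let ⟨_, c1, c2⟩ := hf; let ⟨_, d1, d2⟩ := hg
            ⟨_, (map_mul _ _ _).trans_le (mul_le_one' c1 d1), mul_mem c2 d2⟩
      have g2 : ∀ l m, (s l * s' m / x b ^ c, (y b ^ c)⁻¹ * w (l, m)) ∈ gr p.φ := fun l m =>
        ⟨⟨_, h1 p.i l m⟩, ⟨_, gen x b p.i⟩ ^ c, (map_pow _ _ _).trans_ne (pow_ne_zero _ b0),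
          by simp [div_pow, div_mul_div_cancel₀, hx b], by
            rw [map_pow, mul_right_comm, inv_mul_cancel₀ (pow_ne_zero _ b0), one_mul]⟩
      choose v v1 v2 using fun l m => g1 _ (a1 b l m)
      have g3 : ∀ l m, P.1.val ((y b ^ c)⁻¹ * w (l, m)) ≤ 1 := fun l m =>
        let ⟨_, c1, c2⟩ := g1 _ (h1 b l m)
        gr_fun c2 (g2 l m) ▸ c1
      have g4 : ∑ l, ∑ m, v l m * ((y b ^ c)⁻¹ * w (l, m)) = 1 := gr_fun (f := (1 : K))
        (φ := p.φ) (by
        convert sum_mem fun l (_ : l ∈ Finset.univ) => sum_mem fun m (_ : m ∈ Finset.univ) =>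
          mul_mem (v2 l m) (g2 l m) using 1
        simp [Prod.ext_iff, Prod.fst_sum, Prod.snd_sum, a2]) (one_mem _)
      obtain ⟨l, m, g5⟩ : ∃ l m, 1 ≤ P.1.val ((y b ^ c)⁻¹ * w (l, m)) := by
        by_contra! c
        refine ((congrArg _ g4).trans P.1.val.map_one).not_lt
          (P.1.val.map_sum_lt one_ne_zero fun l _ => P.1.val.map_sum_lt one_ne_zero fun m _ => ?_)
        rw [map_mul]
        exact (mul_le_of_le_one_left' (v1 l m)).trans_lt (c l m)
      have w0 : w ≠ 0 := fun c => by simp [c] at g5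
      have g6 := mx_smul P.1 w0 (inv_ne_zero (pow_ne_zero c b0))
      rw [mx_eq P.1 (l := (l, m)) fun o => (g3 o.1 o.2).trans g5, P.1.ord_eq,
        (g3 l m).antisymm g5, P.1.ord_inv, P.1.ord_pow] at g6
      exact ⟨w0, by rw [e]; simp at g6; linarith⟩
    have w0 : w ≠ 0 := fun c => by
      have : ∑ l, ∑ m, p.φ ⟨_, a1 p.i l m⟩ * w (l, m) = 1 := by
        simp only [w, ← map_mul, ← map_sum]
        exact (congrArg _ (Subtype.ext (by simpa using a2 p.i))).trans (map_one _)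
      simp [c] at this
    obtain ⟨τ, t1, t2⟩ := hz.2
    obtain ⟨τ', t3, t4⟩ := hz'.2
    obtain ⟨l, l0⟩ := ne_iff.1 hz.1
    obtain ⟨m, m0⟩ := ne_iff.1 hz'.1
    rw [eqr p s z hz, eqr p s' z' hz', ← hg.mul k p.L inferInstance _ _ z z' hz.1 hz'.1,
      ← eqr p (fun l : σ × σ' => s l.1 * s' l.2) _ ⟨ne_iff.2 ⟨(l, m), mul_ne_zero l0 m0⟩, τ * τ',
        fun o => mul_mul_mul_comm τ (s o.1) τ' (s' o.2) ▸ mul_mem (t1 _) (t3 _), fun o => by
          rw [t2, t4, ← map_mul]
          exact congrArg _ (Subtype.ext (mul_mul_mul_comm _ _ _ _))⟩,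
      eqr p (fun l : σ × σ' => s l.1 * s' l.2) w ⟨w0, (x p.i ^ c)⁻¹,
        fun o => div_eq_inv_mul (s o.1 * s' o.2) _ ▸ h1 p.i o.1 o.2,
        fun o => congrArg _ (Subtype.ext (div_eq_inv_mul _ _))⟩,
      eqr p x y ⟨y0, (x p.i)⁻¹, fun o => div_eq_inv_mul (x o) _ ▸ gen x o p.i,
        fun o => congrArg _ (Subtype.ext (div_eq_inv_mul _ _))⟩, ht, ht, mul_finsum' _ _ (fin y)]
    exact finsum_congr fun P => (key P).2

theorem dg_of (_ : HG) : DG := dg

end Vale.Agent.P270L
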