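import Vale.Agent.P270L.TDefs
import Mathlib.Algebra.Module.Submodule.Union

/-!
# P270L, block T, row HG: heights on a curve
-/

open Set IntermediateField Function
open Vale.Agent.P297

namespace Vale.Agent.P270L

namespace HgH

variable {L σ σ' : Type} [Field L] [Fintype σ] [Fintype σ'] (P : Place L) {z : σ → L} {z' : σ' → L}

/-- an element of the largest size -/
theorem top (h : z ≠ 0) : ∃ l, z l ≠ 0 ∧ mx P z = -P.ord (z l) ∧ ∀ m, P.val (z m) ≤ P.val (z l) := by
  obtain ⟨l₀, h0⟩ := ne_iff.1 h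
  obtain ⟨l, -, e⟩ := Finset.exists_mem_eq_sup Finset.univ ⟨l₀, Finset.mem_univ _⟩
    fun l => P.val (z l)
  have k : ∀ m, P.val (z m) ≤ P.val (z l) := fun m =>
    e ▸ Finset.le_sup (f := fun l => P.val (z l)) (Finset.mem_univ m)
  exact ⟨l, fun c => h0 (by simpa [c] using k l₀), by rw [mx, e, P.ord_eq, neg_neg], k⟩

theorem mx_eq {l : σ} (h : ∀ m, P.val (z m) ≤ P.val (z l)) : mx P z = -P.ord (z l) := by
  rw [mx, P.ord_eq, neg_neg, (Finset.sup_le fun m _ => h m).antisymm
    (Finset.le_sup (f := fun l => P.val (z l)) (Finset.mem_univ l))]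

theorem mx_zero : mx P (0 : σ → L) = 0 := by
  rw [mx, le_bot_iff.1 (Finset.sup_le fun l _ => by simp)]
  rfl

theorem ord_le {x y : L} (hx : x ≠ 0) (h : P.val x ≤ P.val y) : -P.ord x ≤ -P.ord y := by
  have h1 := P.val.ne_zero_iff.2 hx
  rwa [P.ord_eq, P.ord_eq, neg_neg, neg_neg,
    WithZero.log_le_log h1 ((zero_lt_iff.2 h1).trans_le h).ne']

theorem le_mx {l : σ} (h : z l ≠ 0) : -P.ord (z l) ≤ mx P z := by
  obtain ⟨m, -, e, k⟩ := top P (ne_iff.2 ⟨l, h⟩)
  exact e ▸ ord_le P h (k l)

theorem mx_smul (h : z ≠ 0) {c : L} (hc : c ≠ 0) :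
    mx P (fun l => c * z l) = mx P z - P.ord c := by
  obtain ⟨l, h1, e, k⟩ := top P h
  rw [mx_eq P (l := l) fun m => by rw [map_mul, map_mul]; exact mul_le_mul_right (k m) _,
    e, P.ord_mul hc h1]
  ring

theorem mx_mul (h : z ≠ 0) (h' : z' ≠ 0) :
    mx P (fun l : σ × σ' => z l.1 * z' l.2) = mx P z + mx P z' := by
  obtain ⟨l, h1, e, k⟩ := top P h
  obtain ⟨l', h2, e', k'⟩ := top P h'
  rw [mx_eq P (l := (l, l')) fun m => by rw [map_mul, map_mul]; exact mul_le_mul' (k _) (k' _),
    e, e', P.ord_mul h1 h2, neg_add]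

variable {k : Type} [Field k] [Algebra k L]

theorem val_smul (P : PlaceOver k L) (a : k) (x : L) : P.1.val (a • x) ≤ P.1.val x := by
  rw [Algebra.smul_def, map_mul]
  exact mul_le_of_le_one_left' ((P.1.mem_ring_iff _).1 (P.2 a))

omit [Fintype σ] in
theorem val_span (P : PlaceOver k L) {x y : L} (h : ∀ m, P.1.val (z m) ≤ P.1.val y)
    (hx : x ∈ Submodule.span k (range z)) : P.1.val x ≤ P.1.val y := by
  induction hx using Submodule.span_induction with
  | mem x hx => exact hx.elim fun m e => e ▸ h m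
  | zero => simp
  | add a b _ _ ha hb => exact P.1.val.map_add_le ha hb
  | smul a x _ hx => exact (val_smul P a x).trans hx

variable [IsAlgClosed k] [CharZero k] [IsFF k L]

theorem fin (z : σ → L) : (support fun P : PlaceOver k L => mx P.1 z).Finite := by
  by_cases h : z = 0
  · simp [h, mx_zero]
  refine (finite_iUnion fun l => finite_support (k := k) (z l)).subset fun P hP => ?_
  obtain ⟨l, -, e, -⟩ := top P.1 h
  exact mem_iUnion.2 ⟨l, fun c => hP (by simpa [e] using c)⟩

variable (k) in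
theorem sum_ord (c : L) : ∑ᶠ P : PlaceOver k L, P.1.ord c = 0 :=
  (deg_eq_finsum (div k c)).symm.trans (deg_div c)

end HgH

open HgH in
/-- row HG -/
theorem hg : HG where
  nn k L _ _ _ _ _ _ σ _ z := by
    by_cases h : z = 0
    · simp [ht, h, mx_zero]
    obtain ⟨l, hl⟩ := ne_iff.1 h
    have := finsum_le_finsum' (finite_support (k := k) (z l)⁻¹) (fin z) fun P => by
      simpa using le_mx P.1 hl
    rwa [sum_ord] at this
  smul k L _ _ _ _ _ _ σ _ z c hc := by
    by_cases h : z = 0
    · simp [h, ← Pi.zero_def]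
    simp only [ht, mx_smul _ h hc]
    rw [finsum_sub_distrib (fin z) (finite_support c), sum_ord, sub_zero]
  mul k L _ _ _ _ _ _ σ σ' _ _ z z' h h' := by
    simp only [ht, mx_mul _ h h']
    exact finsum_add_distrib (fin z) (fin z')
  le k L _ _ _ _ _ _ σ σ' _ _ z z' h' hs := finsum_le_finsum' (fin z') (fin z) fun P => by
    obtain ⟨l', h2, e', -⟩ := top P.1 h'
    obtain ⟨l, -, e, k1⟩ := top P.1 (z := z) (by
      rintro rfl
      exact h2 (P.1.val.zero_iff.1 (by simpa using val_span P (y := 0) (by simp) (hs l'))))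
    exact (e'.le.trans (ord_le P.1 h2 (val_span P k1 (hs l')))).trans e.ge
  deg k L _ _ _ _ _ _ t h := by
    have h1 : Transcendental k t⁻¹ := fun c => h (by simpa using c.inv)
    have h2 : k⟮t⁻¹⟯ = k⟮t⟯ := le_antisymm
      (adjoin_simple_le_iff.2 (inv_mem (mem_adjoin_simple_self k t)))
      (adjoin_simple_le_iff.2 (by simpa using inv_mem (mem_adjoin_simple_self k t⁻¹)))
    have h0 : t ≠ 0 := fun c => h (c ▸ isAlgebraic_zero)
    rw [← h2, ← (degree_formula h1).2, ← finsum_pos_part]
    refine finsum_congr fun P => le_antisymm ?_ (max_le ?_ ?_)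
    · obtain ⟨l, -, e, -⟩ := top P.1 (z := ![1, t]) (ne_iff.2 ⟨0, one_ne_zero⟩)
      rw [e]
      fin_cases l <;> simp
    · simpa using le_mx P.1 (z := ![1, t]) (l := 1) h0
    · simpa using le_mx P.1 (z := ![1, t]) (l := 0) one_ne_zero
  gen k₀ k _ _ _ _ _ J σ _ _ L _ _ _ z hz := by
    classical
    have : CharZero k := charZero_of_injective_algebraMap (algebraMap k₀ k).injective
    have : Infinite k₀ := .of_injective _ Nat.cast_injective
    have key : ∀ (I : Type) [Finite I] (j : I → J) (P : ∀ i, PlaceOver k (L (j i))), ∃ a : σ → k₀,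
        ∀ i m, (P i).1.val (z _ m) ≤ (P i).1.val (∑ l, algebraMap k₀ k (a l) • z _ l) := by
      intro I _ j P
      choose l l1 _ l2 using fun i => top (P i).1 (hz (j i))
      obtain ⟨a, ha⟩ := Submodule.exists_forall_notMem_of_forall_ne_top (K := k₀) (fun i =>
        { carrier := {a : σ → k₀ | (P i).1.val (∑ l, algebraMap k₀ k (a l) • z _ l) <
            (P i).1.val (z _ (l i))}
          add_mem' := fun h h' => by
            simpa only [mem_ofPred_eq, Pi.add_apply, map_add, add_smul, Finset.sum_add_distrib]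
              using (P i).1.val.map_add_lt h h'
          zero_mem' := by simpa [zero_lt_iff] using l1 i
          smul_mem' := fun c a h => by
            refine lt_of_le_of_lt (le_of_eq_of_le ?_ (val_smul (P i) (algebraMap k₀ k c) _)) h
            simp only [Pi.smul_apply, smul_eq_mul, map_mul, mul_smul, Finset.smul_sum] })
        fun i c => by
          have : Pi.single (l i) (1 : k₀) ∈ (⊤ : Submodule k₀ (σ → k₀)) := trivial
          rw [← c] at this
          refine (show (P i).1.val _ < (P i).1.val _ from this).ne (congrArg _ ?_)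
          simp [Pi.single_apply, apply_ite, ite_smul]
      exact ⟨a, fun i m => (l2 i m).trans (not_lt.1 (ha i))⟩
    have ne : ∀ j, Nonempty (PlaceOver k (L j)) := fun j => by
      obtain ⟨t, h⟩ := IsFF.exists_transcendental (k := k) (E := L j)
      by_contra! c
      have := IsFF.finiteDimensional h
      have e := (degree_formula h).2
      rw [finsum_of_isEmpty] at e
      exact Module.finrank_pos.ne (by exact_mod_cast e)
    obtain ⟨b, hb⟩ := key J id fun j => (ne j).some
    have b0 : ∀ j, ∑ l, algebraMap k₀ k (b l) • z j l ≠ 0 := fun j c => hz j (funext fun m => by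
      simpa [c] using hb j m)
    have := fun j => ((fin (k := k) (z j)).union
      (finite_support (k := k) (∑ l, algebraMap k₀ k (b l) • z j l))).to_subtype
    obtain ⟨a, ha⟩ := key (Σ j, ↥((support fun P : PlaceOver k (L j) => mx P.1 (z j)) ∪
      support fun P : PlaceOver k (L j) => P.1.ord (∑ l, algebraMap k₀ k (b l) • z j l)))
      Sigma.fst fun i => i.2.1
    refine ⟨a, b, fun j => ⟨b0 j, finsum_congr fun P => ?_⟩⟩
    obtain ⟨l, l1, e, l2⟩ := top P.1 (hz j)
    have sp : ∀ c : σ → k₀, P.1.val (∑ l, algebraMap k₀ k (c l) • z j l) ≤ P.1.val (z j l) :=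
      fun c => val_span P l2 (Submodule.sum_mem _ fun m _ =>
        Submodule.smul_mem _ _ (Submodule.subset_span (mem_range_self m)))
    refine le_antisymm ?_ ?_
    · obtain ⟨i, i1, e', -⟩ := top P.1 (z := ![∑ l, algebraMap k₀ k (b l) • z j l,
        ∑ l, algebraMap k₀ k (a l) • z j l]) (ne_iff.2 ⟨0, b0 j⟩)
      rw [e, e']
      refine ord_le P.1 i1 ?_
      fin_cases i <;> exact sp _
    by_cases c : mx P.1 (z j) = 0 ∧ P.1.ord (∑ l, algebraMap k₀ k (b l) • z j l) = 0
    · refine le_trans ?_ (le_mx P.1 (l := 0) (b0 j))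
      simp [c.1, c.2]
    · have h1 : P.1.val (z j l) ≤ P.1.val (∑ l, algebraMap k₀ k (a l) • z j l) :=
        ha ⟨j, P, not_and_or.1 c⟩ l
      have h2 : ∑ l, algebraMap k₀ k (a l) • z j l ≠ 0 := fun c => l1 (by simpa [c] using h1)
      exact (e.le.trans (ord_le P.1 l1 h1)).trans (le_mx P.1 (z := ![_, _]) (l := 1) h2)

end Vale.Agent.P270L
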