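import Vale.Agent.P270L.T.Fru

/-!
# P270L, block T: rows HYB, COB, TRANS
-/

open Set
open Vale.Agent.P285N.Brep (jac Fr)

noncomputable section

namespace Vale.Agent.P270L

namespace HybH

theorem free_self {k K : Type} [Field k] [Field K] [Algebra k K] {ι : Type} [Fintype ι]
    {x : ι → K} (h : ∀ i, x i ≠ 0) : Free k x x := by
  classical
  intro i
  refine ⟨fun j => if j = i then (x i)⁻¹ else 0, fun j l => ?_, ?_⟩
  · by_cases e : j = i
    · simp only [e, if_true, inv_mul_eq_div]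
      exact Algebra.subset_adjoin ⟨l, rfl⟩
    · simp only [e, if_false, zero_mul]
      exact zero_mem _
  · simp [h i]

theorem free_ne {k K : Type} [Field k] [Field K] [Algebra k K] {ι σ : Type} [Nonempty ι]
    [Fintype σ] {x : ι → K} {s : σ → K} (h : Free k x s) : s ≠ 0 := by
  rintro rfl
  obtain ⟨t, -, ht⟩ := h (Classical.arbitrary ι)
  simp at ht

variable {k k' K K' : Type} [Field k] [Field k'] [Field K] [Field K'] [Algebra k k'] [Algebra k K]
  [Algebra k K'] [Algebra k' K'] [Algebra K K'] [IsScalarTower k K K'] [IsScalarTower k k' K']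
  [IsAlgClosed k] [IsAlgClosed k'] [CharZero k] {ι : Type} [Fintype ι] {x : ι → K}

theorem spec (hS : SPEC) (h : BC k k' K K') (hx : ∀ i, x i ≠ 0) (p' : Cv k' (up K' x)) :
    ∃ (J : Type) (_ : Fintype J) (p : J → Cv k x), ∀ D : Cd K, Free k x D.s →
      p'.deg (D.up K') = ∑ j, (p j).deg D := by
  obtain ⟨J, _, p, hp⟩ := hS k k' K K' h ι x hx p'
  refine ⟨J, inferInstance, p, fun D hD => ?_⟩
  have h1 := hp _ D.s hD
  have h2 := hp _ x (free_self hx)
  simp only [Cv.deg, Finset.sum_sub_distrib, ← Finset.mul_sum, ← h1, ← h2]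
  rfl

theorem cbc (hC : CBC) (h : BC k k' K K') (hx : ∀ i, x i ≠ 0) (p : Cv k x) :
    ∃ p' : Cv k' (up K' x), p.Up p' ∧ p'.dg (up K' x) = p.dg x ∧ ∀ D : Cd K, Free k x D.s →
      p'.deg (D.up K') = p.deg D := by
  obtain ⟨p', hu, hp⟩ := hC k k' K K' h ι x p
  refine ⟨p', hu, hp _ x (free_self hx), fun D hD => ?_⟩
  have h1 := hp _ D.s hD
  have h2 := hp _ x (free_self hx)
  simp only [Cv.deg, ← h1, ← h2]
  rfl

omit [Fintype ι] in
theorem eff_up (hN : LDN) (h : BC k k' K K') {E : Cd K} (hE : Eff k x E) :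
    Eff k' (up K' x) (E.up K') := fun i => by
  have := (hN.sp k k' K K' h ι _ x i E.s _).2 (hE i)
  rwa [map_pow] at this

theorem psf_up (hN : LDN) (hS : SPEC) (h : BC k k' K K') (hx : ∀ i, x i ≠ 0) {C : Cd K}
    (hC : Free k x C.s) (hp : Psf k x C) : Psf k' (up K' x) (C.up K') := by
  intro τ _ p' ε hε
  choose J hJ p hp' using fun j => spec hS h hx (p' j)
  set N : ℝ := (Fintype.card (Σ j, J j) : ℝ) with hN'
  have hN0 : 0 ≤ N := Nat.cast_nonneg _
  obtain ⟨E, a, ha, hE, he, hl⟩ := hp (Σ j, J j) (fun s => p s.1 s.2) (ε / (N + 1)) (by positivity)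
  refine ⟨E.up K', a, ha, (hN.free k k' K K' h ι _ x E.s).2 hE, eff_up hN h he, fun j => ?_⟩
  rw [hp' j E hE, hp' j C hC]
  push_cast
  rw [Finset.sum_div, ← Finset.sum_sub_distrib]
  refine (Finset.abs_sum_le_sum_abs _ _).trans_lt ?_
  refine (Finset.sum_le_card_nsmul _ _ (ε / (N + 1)) fun b _ => (hl ⟨j, b⟩).le).trans_lt ?_
  have h1 : (Fintype.card (J j) : ℝ) ≤ N := by
    rw [hN']
    exact_mod_cast Fintype.card_le_of_injective (Sigma.mk j) sigma_mk_injective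
  rw [nsmul_eq_mul, Finset.card_univ, ← mul_div_assoc, div_lt_iff₀ (by positivity)]
  nlinarith

theorem psf_dn (hC' : CBC) (hU : USP) (h : BC k k' K K') (hx : ∀ i, x i ≠ 0) {C : Cd K}
    (hC : Free k x C.s) (hp : Psf k' (up K' x) (C.up K')) : Psf k x C := by
  intro τ _ p ε hε
  choose p' hu h1 h2 using fun j => cbc hC' h hx (p j)
  obtain ⟨E, a, ha, hE, he, hl⟩ := hp τ p' ε hε
  obtain ⟨u, f, e, d⟩ := hU k k' K K' h ι E.σ x E.s E.c hx hE
  refine ⟨⟨E.σ, u, E.c⟩, a, ha, f, e he, fun j => ?_⟩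
  have := hl j
  rw [h2 j C hC, Cv.deg, d _ _ (hu j), h1 j] at this
  exact this

end HybH

open HybH

theorem hyb_of (hD : DER) (hM : MDU) (hN : LDN) (hK : KLB) (hS : SPEC) (hC : CBC) (hU : USP) :
    HYB := by
  intro k k' K K' _ _ _ _ _ _ _ _ _ _ _ _ _ _ h ι _ _ x n y δ δ' q C M hf hf'
  have hb : Bdy (up K' x) δ' q (C.up K') ↔ Bdy x δ q C := by
    refine forall_congr' fun i => forall_congr' fun e => ?_
    rw [← hN.sp k k' K K' h ι _ x i C.s, map_mul, map_pow, map_pow]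
    have : algebraMap K K' (jac δ fun a => x (e a) / x i) =
        jac δ' fun a => up K' x (e a) / up K' x i := by
      unfold jac
      rw [RingHom.map_det]
      congr 1
      ext a b
      simp only [RingHom.mapMatrix_apply, Matrix.map_apply, Matrix.of_apply, up, ← map_div₀]
      exact (fr_res hD hf hf' _ _).symm
    rw [this]
    rfl
  constructor
  · intro H
    have md := hN.md k k' K K' h ι x H.md
    have fC := (hN.free k k' K K' h ι _ x C.s).1 H.fC
    have fM := (hN.free k k' K K' h ι _ x M.s).1 H.fM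
    refine ⟨md, hf, H.q0, fC, fM, hb.1 H.bdy,
      (hK k k' K K' h ι x n y δ q C md.ne hf H.q0 (free_ne fC)).1 H.klt,
      psf_dn hC hU h md.ne fC H.psf, fun p => ?_, fun p => ?_⟩
    · obtain ⟨p', -, -, hp⟩ := cbc hC h md.ne p
      rw [← hp M fM]
      exact H.nM p'
    · obtain ⟨p', -, -, hp⟩ := cbc hC h md.ne p
      rw [← hp M fM, ← hp C fC]
      exact H.nD p'
  · intro H
    refine ⟨hM k k' K K' h n y (fr_ind hf) hf.fin ι x H.md, hf', H.q0,
      (hN.free k k' K K' h ι _ x C.s).2 H.fC, (hN.free k k' K K' h ι _ x M.s).2 H.fM, hb.2 H.bdy,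
      (hK k k' K K' h ι x n y δ q C H.md.ne hf H.q0 (free_ne H.fC)).2 H.klt,
      psf_up hN hS h H.md.ne H.fC H.psf, fun p' => ?_, fun p' => ?_⟩
    · obtain ⟨J, _, p, hp⟩ := spec hS h H.md.ne p'
      rw [hp M H.fM]
      exact Finset.sum_nonneg fun j _ => H.nM _
    · obtain ⟨J, _, p, hp⟩ := spec hS h H.md.ne p'
      rw [hp M H.fM, hp C H.fC, ← Finset.sum_add_distrib]
      exact Finset.sum_nonneg fun j _ => H.nD _

theorem cob_of (hN : LDN) (hS : SPEC) (hC : CBC) (hU : USP) : COB := by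
  intro k k' K K' _ _ _ _ _ _ _ _ _ _ _ _ _ _ h ι _ x C M hx fC fM
  constructor
  · rintro ⟨m, σ, _, u', hm, hu, hd⟩
    obtain ⟨u, f, -, d⟩ := hU k k' K K' h ι σ x u' 0 hx hu
    refine ⟨m, σ, inferInstance, u, hm, f, fun p => ?_⟩
    obtain ⟨p', h1, -, hp⟩ := cbc hC h hx p
    rw [← d p p' h1, hd, hp C fC, hp M fM]
  · rintro ⟨m, σ, _, u, hm, hu, hd⟩
    refine ⟨m, σ, inferInstance, up K' u, hm, (hN.free k k' K K' h ι σ x u).2 hu, fun p' => ?_⟩
    obtain ⟨J, _, p, hp⟩ := spec hS h hx p'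
    have h1 := hp ⟨σ, u, 0⟩ hu
    simp only [Cv.deg, Cd.up, Nat.cast_zero, zero_mul, sub_zero] at h1
    rw [hp C fC, hp M fM, ← Finset.sum_add_distrib, Finset.mul_sum]
    refine h1.trans ?_
    exact Finset.sum_congr rfl fun j _ => hd _

theorem trans_of (hD : DER) (hE : EMB) (hU : EXU) (hX : EXD) (hF : FRU) (hH : HYB)
    (hC : COB) : TRANS := by
  intro n H k' _ _ _ K' _ _ ι _ _ x' y' δ' q C' M' h'
  obtain ⟨k, K, _, _, _, _, _, _, _, _, _, _, bc, hS, y, rfl, hy⟩ := hX k' K' n y' h'.fr.fin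
    (range x' ∪ range C'.s ∪ range M'.s) (((finite_range _).union (finite_range _)).union
      (finite_range _))
  have : CharZero k := RingHom.charZero (algebraMap k k')
  obtain ⟨σ, s, e⟩ := C'
  obtain ⟨τ, t, f⟩ := M'
  choose x hx using fun i => hS (Or.inl (Or.inl ⟨i, rfl⟩) : x' i ∈ _)
  choose c hc using fun i : σ => hS (Or.inl (Or.inr ⟨i, rfl⟩) : s i ∈ _)
  choose m hm using fun i : τ => hS (Or.inr ⟨i, rfl⟩ : t i ∈ _)
  obtain rfl : x' = up K' x := (funext hx).symm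
  obtain rfl : s = up K' c := (funext hc).symm
  obtain rfl : t = up K' m := (funext hm).symm
  have hi : AlgebraicIndependent k y :=
    AlgebraicIndependent.of_comp (IsScalarTower.toAlgHom k K K')
      ((fr_ind h'.fr).restrictScalars (algebraMap k k').injective)
  obtain ⟨δ, hδ⟩ := hD.ex k K n y hi hy
  have h := (hH k k' K K' bc ι x n y δ δ' q ⟨σ, c, e⟩ ⟨τ, m, f⟩ hδ h'.fr).1 h'
  refine (hC k k' K K' bc ι x ⟨σ, c, e⟩ ⟨τ, m, f⟩ h.md.ne h.fC h.fM).2 ?_
  obtain ⟨φ⟩ := hE k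
  let _ := φ.toAlgebra
  obtain ⟨L, _, _, _, _, _, _, bc'⟩ := hU k ℂ K
  obtain ⟨ε, hε, -⟩ := hF k ℂ K L bc' n y δ hδ
  exact (hC k ℂ K L bc' ι x _ _ h.md.ne h.fC h.fM).1
    (H L ι _ _ ε q _ _ ((hH k ℂ K L bc' ι x n y δ ε q _ _ hδ hε).2 h))

end Vale.Agent.P270L
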