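import Vale.Agent.P270L.TDefs

/-!
# P270L, block T: the height does not go up under reduction (row SEMI)
-/

open Set IntermediateField Polynomial
open Vale.Agent.P297 (IsFF)

noncomputable section

namespace Vale.Agent.P270L

namespace SemiAux

section one

variable {k L : Type} [Field k] [Field L] [Algebra k L]

theorem ht_const (c : k) : ht k ![1, algebraMap k L c] = 0 := by
  refine finsum_eq_zero_of_forall_eq_zero fun P => ?_
  have h : (Finset.univ.sup fun l => P.1.val (![1, algebraMap k L c] l)) = 1 := by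
    refine le_antisymm (Finset.sup_le fun l _ => ?_) ?_
    · fin_cases l
      · simp
      · exact (P.1.mem_ring_iff _).1 (P.2 c)
    · simp
  rw [mx, h, WithZero.log_one]

theorem hom_pow {α β : L} (hβ : β ≠ 0) {m d : ℕ} (h : m ≤ d) :
    α ^ m * β ^ (d - m) = β ^ d * (α / β) ^ m := by
  rw [pow_sub₀ _ hβ h, div_pow]
  field_simp

variable [IsAlgClosed k] [CharZero k] [IsFF k L]

theorem ht_pair (hG : HG) {α β : L} (hβ : β ≠ 0) : ht k ![β, α] = ht k ![1, α / β] := by
  rw [← hG.smul k L ‹_› _ ![1, α / β] β hβ]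
  congr 1
  funext l
  fin_cases l
  · simp
  · simp [mul_div_cancel₀ _ hβ]

theorem ex_li (hG : HG) {α β : L} (hβ : β ≠ 0) : ∃ (n : ℕ) (e : Fin n → L), ht k ![β, α] = n ∧
    ∀ d, LinearIndependent k fun p : Fin (d + 1) × Fin n =>
      α ^ (p.1 : ℕ) * β ^ (d - p.1) * e p.2 := by
  rw [ht_pair hG hβ]
  rcases P297.const_or_transcendental (k := k) (α / β) with ⟨c, hc⟩ | h
  · exact ⟨0, Fin.elim0, by rw [hc, ht_const]; rfl, fun d => linearIndependent_empty_type⟩
  have := IsFF.finiteDimensional h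
  refine ⟨_, Module.finBasis k⟮α / β⟯ L, hG.deg k L ‹_› _ h, fun d => ?_⟩
  have hg : Transcendental k (AdjoinSimple.gen k (α / β)) :=
    (transcendental_algebraMap_iff (algebraMap k⟮α / β⟯ L).injective).1 h
  have h1 := (basisMonomials k).linearIndependent.map'
    (aeval (AdjoinSimple.gen k (α / β))).toLinearMap
    (LinearMap.ker_eq_bot.2 (transcendental_iff_injective.1 hg))
  have h2 := ((linearIndependent_smul h1 (Module.finBasis k⟮α / β⟯ L).linearIndependent).comp
    (Prod.map (Fin.val (n := d + 1)) id) (Fin.val_injective.prodMap Function.injective_id)).map'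
    (LinearMap.mulLeft k (β ^ d)) (LinearMap.ker_eq_bot.2 (mul_right_injective₀ (pow_ne_zero _ hβ)))
  refine (congrArg (LinearIndependent k ·) (funext fun p => ?_)).mp h2
  simp [hom_pow hβ (Nat.le_of_lt_succ p.1.2), Algebra.smul_def, aeval_monomial, mul_assoc]

open scoped IntermediateField.algebraAdjoinAdjoin in
theorem card_le (hG : HG) {α β : L} (hβ : β ≠ 0) {I : Type} [Fintype I] [Nonempty I] (b : I → L)
    (h : ∀ d, LinearIndependent k fun p : Fin (d + 1) × I =>
      α ^ (p.1 : ℕ) * β ^ (d - p.1) * b p.2) : (Fintype.card I : ℤ) ≤ ht k ![β, α] := by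
  classical
  have key : ∀ f : I → k[X], ∑ i, aeval (α / β) (f i) * b i = 0 → ∀ i, f i = 0 := by
    intro f hf i
    obtain ⟨d, hd⟩ : ∃ d, ∀ i, (f i).natDegree < d + 1 :=
      ⟨Finset.univ.sup fun i => (f i).natDegree, fun i => Nat.lt_succ_of_le
        (Finset.le_sup (f := fun i => (f i).natDegree) (Finset.mem_univ i))⟩
    have h1 := Fintype.linearIndependent_iff.1 (h d) (fun p => (f p.2).coeff p.1) (by
      rw [Fintype.sum_prod_type_right, ← mul_zero (β ^ d), ← hf, Finset.mul_sum]
      refine Finset.sum_congr rfl fun j _ => ?_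
      rw [aeval_eq_sum_range' (hd j), Finset.sum_range, Finset.sum_mul, Finset.mul_sum]
      refine Finset.sum_congr rfl fun m _ => ?_
      simp [hom_pow hβ (Nat.le_of_lt_succ m.2), mul_assoc])
    ext m
    by_cases hm : m < d + 1
    · exact h1 (⟨m, hm⟩, i)
    · exact coeff_eq_zero_of_natDegree_lt ((hd i).trans_le (not_lt.1 hm))
  have ht : Transcendental k (α / β) := by
    obtain ⟨i⟩ := ‹Nonempty I›
    refine transcendental_iff.2 fun p hp => key (fun _ => p) (by simp [hp]) i
  have := IsFF.finiteDimensional ht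
  rw [ht_pair hG hβ, hG.deg k L ‹_› _ ht, Nat.cast_le]
  refine LinearIndependent.fintype_card_le_finrank (b := b)
    ((LinearIndependent.iff_fractionRing (R := Algebra.adjoin k {α / β}) _).1
      (Fintype.linearIndependent_iff.2 fun g hg i => ?_))
  have h2 : ∀ i, ∃ f : k[X], aeval (α / β) f = g i := fun i =>
    (Algebra.adjoin_singleton_eq_range_aeval k (α / β)).le (g i).2
  choose f hf using h2
  refine Subtype.ext ?_
  rw [← hf, key f (by simp only [hf]; exact hg) i, map_zero]
  rfl

end one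

variable {k k' L' : Type} [Field k] [Field k'] [Field L'] [Algebra k k'] [Algebra k' L']
  [Algebra k L']

theorem li (R : Red k k' L') {I : Type} [Fintype I] (v : I → R.B)
    (h : LinearIndependent k fun i j => R.r j (v i)) : LinearIndependent k' fun i => (v i : L') := by
  refine Fintype.linearIndependent_iff.2 fun g hg i => by_contra fun hi => ?_
  let V : ValuationSubring k' := ⟨R.W.toSubring, R.tot⟩
  obtain ⟨m, -, hm⟩ := Finset.exists_max_image Finset.univ (fun i => V.valuation (g i))
    ⟨i, Finset.mem_univ i⟩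
  have h0 : V.valuation (g m) ≠ 0 := fun h0 =>
    hi (V.valuation.zero_iff.1 (le_zero_iff.1 (h0 ▸ hm i (Finset.mem_univ i))))
  have h1 : g m ≠ 0 := V.valuation.ne_zero_iff.1 h0
  have hc : ∀ i, g i / g m ∈ R.W := fun i => (V.valuation_le_one_iff _).1 (by
    rw [map_div₀]
    exact div_le_one_of_le₀ (hm i (Finset.mem_univ i)) zero_le)
  obtain ⟨c, hc⟩ : ∃ c : I → R.W, ∀ i, c i = g i / g m := ⟨fun i => ⟨_, hc i⟩, fun _ => rfl⟩
  have h2 : ∑ i, (⟨_, R.hW (c i)⟩ : R.B) * v i = 0 := by
    refine Subtype.ext ?_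
    have h3 := congrArg ((g m)⁻¹ • ·) hg
    simp only [Finset.smul_sum, smul_smul, smul_zero, ← div_eq_inv_mul, ← hc] at h3
    simpa [Algebra.smul_def] using h3
  have h3 := Fintype.linearIndependent_iff.1 h (fun i => R.ρ (c i)) (funext fun j => by
    simpa [Algebra.smul_def, R.hr] using congrArg (R.r j) h2) m
  rw [show c m = 1 from Subtype.ext ((hc m).trans (div_self h1)), map_one] at h3
  exact one_ne_zero h3

end SemiAux

open SemiAux in
theorem semi_of (hG : HG) : SEMI := by
  intro k k' L' _ _ _ _ _ _ _ _ _ _ _ R hF σ _ z hz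
  classical
  have : CharZero k' := charZero_of_injective_algebraMap (algebraMap k _).injective
  obtain ⟨a, c, h1⟩ := hG.gen k k R.J σ R.L (fun j l => R.r j (z l)) hz
  have h2 : ∀ (a : σ → k) j, ∑ l, algebraMap k k (a l) • R.r j (z l) = R.r j (∑ l, a l • z l) := by
    simp
  simp only [h2] at h1
  obtain ⟨α, hα⟩ : ∃ α, α = ∑ l, a l • z l := ⟨_, rfl⟩
  obtain ⟨β, hβ⟩ : ∃ β, β = ∑ l, c l • z l := ⟨_, rfl⟩
  rw [← hα, ← hβ] at h1
  choose n e h3 h4 using fun j => ex_li (k := k) hG (α := R.r j α) (h1 j).1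
  have h5 : ∑ j, ht k (fun l => R.r j (z l)) = Fintype.card (Σ j, Fin (n j)) := by
    simp [← h3, (h1 _).2]
  rw [h5]
  rcases isEmpty_or_nonempty (Σ j, Fin (n j)) with hI | hI
  · simpa using hG.nn k' L' ‹_› σ _
  have hβ0 : (β : L') ≠ 0 := fun h => by
    obtain ⟨j, -⟩ := hI
    exact (h1 j).1 (by rw [show β = 0 from Subtype.ext h, map_zero])
  choose b hb using fun i : Σ j, Fin (n j) => R.on (Pi.single i.1 (e i.1 i.2))
  refine (card_le (α := (α : L')) hG hβ0 (fun i => (b i : L')) fun d => ?_).trans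
    (hG.le k' L' ‹_› _ _ _ _ (fun h => hβ0 (congrFun h 0)) fun l => ?_)
  · refine li R (fun p : Fin (d + 1) × Σ j, Fin (n j) => α ^ (p.1 : ℕ) * β ^ (d - p.1) * b p.2) ?_
    convert (Pi.linearIndependent_single _ fun j => h4 j d).comp
      (fun p : Fin (d + 1) × Σ j, Fin (n j) => ⟨p.2.1, p.1, p.2.2⟩) ?_ using 1
    · funext p j
      by_cases h : j = p.2.1
      · subst h
        simp [hb]
      · simp [hb, h]
    · rintro ⟨m, j, i⟩ ⟨m', j', i'⟩ h
      obtain rfl : j = j' := congrArg Sigma.fst h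
      simpa using h
  · have h6 : ∀ a : σ → k, ((∑ l, a l • z l : R.B) : L') ∈
        Submodule.span k' (range fun l => (z l : L')) := fun a => by
      rw [AddSubmonoidClass.coe_finsetSum]
      exact Submodule.sum_mem _ fun l _ => Submodule.smul_of_tower_mem _ (a l)
        (Submodule.subset_span ⟨l, rfl⟩)
    fin_cases l
    · exact hβ ▸ h6 c
    · exact hα ▸ h6 a

end Vale.Agent.P270L
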