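import Vale.Agent.P270L.TDefs

/-!
# P270L, block T: tools for places
-/

open Set
open Vale.Agent.P297 (Place)

namespace Vale.Agent.P270L.PlH

variable {k K K' : Type} [Field k] [Field K] [Field K'] [Algebra k K]

theorem ord_zpow (P : Place K) (x : K) (m : ℤ) : P.ord (x ^ m) = m * P.ord x := by
  obtain ⟨n, rfl | rfl⟩ := m.eq_nat_or_neg
  · rw [zpow_natCast, P.ord_pow]
  · rw [zpow_neg, zpow_natCast, P.ord_inv, P.ord_pow, neg_mul]

theorem val_one (P : Place K) {x : K} : P.val x = 1 ↔ x ≠ 0 ∧ x ∈ P.ring ∧ x⁻¹ ∈ P.ring := by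
  rcases eq_or_ne x 0 with rfl | h
  · simp
  · rw [← P.ord_eq_zero_iff h, P.val_eq x h, WithZero.exp_eq_one, neg_eq_zero, and_iff_right h]

/-- a valuation ring with a uniformiser is a place -/
theorem dvr_of (V : ValuationSubring K) {π : K} (h1 : π ∈ V) (h2 : π⁻¹ ∉ V)
    (h : ∀ f : K, f ≠ 0 → ∃ m : ℤ, f / π ^ m ∈ V ∧ (f / π ^ m)⁻¹ ∈ V) :
    ∃ P : Place K, P.ring = V ∧ P.ord π = 1 := by
  have π0 : π ≠ 0 := fun e => h2 (by simp [e])
  have k1 : ∀ x : V, x ≠ 0 → ∃ (n : ℕ) (u : Vˣ), (⟨π, h1⟩ : V) ^ n * u = x := fun x hx => by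
    have x0 : (x : K) ≠ 0 := by simpa using hx
    obtain ⟨m, a, b⟩ := h x x0
    obtain ⟨n, rfl⟩ := Int.eq_ofNat_of_zero_le (show 0 ≤ m from not_lt.1 fun e => h2 (by
      obtain ⟨n, rfl⟩ : ∃ n : ℕ, m = -(n + 1) := ⟨(-m - 1).toNat, by omega⟩
      convert V.mul_mem _ _ (V.mul_mem _ _ b x.2) (pow_mem h1 n) using 1
      rw [zpow_neg, zpow_add_one₀ π0, zpow_natCast]
      field_simp))
    have y0 : (x : K) / π ^ (n : ℤ) ≠ 0 := div_ne_zero x0 (zpow_ne_zero _ π0)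
    refine ⟨n, ⟨⟨_, a⟩, ⟨_, b⟩, Subtype.ext (mul_inv_cancel₀ y0),
      Subtype.ext (inv_mul_cancel₀ y0)⟩, Subtype.ext ?_⟩
    show π ^ n * ((x : K) / π ^ (n : ℤ)) = x
    rw [zpow_natCast, mul_div_cancel₀ _ (pow_ne_zero n π0)]
  have k2 : ¬ IsUnit (⟨π, h1⟩ : V) := fun ⟨u, hu⟩ => h2 (by
    have : ((u⁻¹ : Vˣ) : V).1 * π = 1 := by
      simpa [hu] using congrArg Subtype.val u.inv_mul
    rw [← eq_inv_of_mul_eq_one_left this]
    exact (u⁻¹ : Vˣ).1.2)
  have p0 : (⟨π, h1⟩ : V) ≠ 0 := fun e => π0 (congrArg Subtype.val e)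
  let P : Place K := ⟨V, IsDiscreteValuationRing.ofHasUnitMulPowIrreducibleFactorization
    ⟨⟨π, h1⟩, ⟨k2, fun a b e => by
      obtain ⟨i, u, rfl⟩ := k1 a (left_ne_zero_of_mul (e ▸ p0))
      obtain ⟨j, v, rfl⟩ := k1 b (right_ne_zero_of_mul (e ▸ p0))
      rcases i with _ | i
      · simp
      rcases j with _ | j
      · simp
      refine absurd (IsUnit.of_mul_eq_one ((⟨π, h1⟩ : V) ^ i * u * ((⟨π, h1⟩ : V) ^ j * v))
        (mul_left_cancel₀ p0 ?_)) k2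
      rw [mul_one]
      refine Eq.trans ?_ e.symm
      ring⟩, fun {x} hx => by
      obtain ⟨n, u, e⟩ := k1 x hx
      exact ⟨n, u, e⟩⟩⟩
  refine ⟨P, rfl, ?_⟩
  obtain ⟨x, x0, hx⟩ := P.exists_ord_eq_one
  obtain ⟨m, hm⟩ := h x x0
  have := (P.ord_eq_zero_iff (div_ne_zero x0 (zpow_ne_zero m π0))).2 hm
  rw [P.ord_div x0 (zpow_ne_zero m π0), ord_zpow, hx, sub_eq_zero] at this
  exact Int.eq_one_of_mul_eq_one_left (P.ord_pos_of_inv_notMem h2).le this.symm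

/-- the orders at a place and at its restriction -/
theorem ord_res [Algebra K K'] {P : Place K} {P' : Place K'}
    (h : ∀ f, algebraMap K K' f ∈ P'.ring ↔ f ∈ P.ring) {π : K} (hπ : P.ord π = 1) (f : K) :
    P'.ord (algebraMap K K' f) = P'.ord (algebraMap K K' π) * P.ord f := by
  have π0 : π ≠ 0 := fun e => by simp [e] at hπ
  rcases eq_or_ne f 0 with rfl | f0
  · simp
  have y0 := div_ne_zero f0 (zpow_ne_zero (P.ord f) π0)
  have := (P.ord_eq_zero_iff y0).1 (by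
    rw [P.ord_div f0 (zpow_ne_zero _ π0), ord_zpow, hπ, mul_one, sub_self])
  rw [← h, ← h, map_inv₀, ← P'.ord_eq_zero_iff ((map_ne_zero _).2 y0), map_div₀, map_zpow₀,
    P'.ord_div ((map_ne_zero _).2 f0) (zpow_ne_zero _ ((map_ne_zero _).2 π0)), ord_zpow] at this
  linarith

/-- the restriction of a place -/
theorem ex_res [Algebra K K'] (P' : Place K') (h : ¬ ∀ f, algebraMap K K' f ∈ P'.ring) :
    ∃ (P : Place K) (e : ℕ), 0 < e ∧ (∀ f, algebraMap K K' f ∈ P'.ring ↔ f ∈ P.ring) ∧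
      ∀ f, P'.ord (algebraMap K K' f) = e * P.ord f := by
  classical
  obtain ⟨g, hg⟩ := not_forall.1 h
  have ex : ∃ e : ℕ, 0 < e ∧ ∃ π, P'.ord (algebraMap K K' π) = e := by
    have := P'.ord_pos_of_inv_notMem (x := algebraMap K K' g⁻¹) (by rwa [map_inv₀, inv_inv])
    exact ⟨(P'.ord (algebraMap K K' g⁻¹)).toNat, by omega, g⁻¹, by omega⟩
  obtain ⟨e0, π, hπ⟩ := Nat.find_spec ex
  have mn := fun m => Nat.find_min' ex (m := m)
  generalize Nat.find ex = e at e0 hπ mn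
  have π0 : algebraMap K K' π ≠ 0 := fun c => by rw [c, P'.ord_zero] at hπ; omega
  obtain ⟨P, h1, h2⟩ := dvr_of (P'.ring.comap (algebraMap K K')) (π := π)
    ((P'.ord_nonneg_iff π0).1 (by omega)) (fun c => by
      have := P'.ord_nonneg_of_mem c
      rw [map_inv₀, P'.ord_inv] at this
      omega) fun f f0 => ⟨P'.ord (algebraMap K K' f) / e, by
      have y0 := div_ne_zero ((map_ne_zero (algebraMap K K')).2 f0)
        (zpow_ne_zero (P'.ord (algebraMap K K' f) / e) π0)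
      have q : P'.ord (algebraMap K K' (f / π ^ (P'.ord (algebraMap K K' f) / e))) =
          P'.ord (algebraMap K K' f) % e := by
        rw [map_div₀, map_zpow₀, P'.ord_div ((map_ne_zero _).2 f0) (zpow_ne_zero _ π0), ord_zpow,
          hπ, Int.emod_def, mul_comm]
      have q1 := Int.emod_nonneg (P'.ord (algebraMap K K' f)) (b := e) (by omega)
      have q2 := Int.emod_lt_of_pos (P'.ord (algebraMap K K' f)) (b := e) (by omega)
      simp only [ValuationSubring.mem_comap, map_inv₀]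
      rw [← P'.ord_eq_zero_iff (by rwa [map_div₀, map_zpow₀])]
      by_contra c
      have := mn (P'.ord (algebraMap K K' f) % e).toNat ⟨by omega, _, q.trans (by omega)⟩
      omega⟩
  have h3 : ∀ f, algebraMap K K' f ∈ P'.ring ↔ f ∈ P.ring := fun f => by rw [h1]; rfl
  exact ⟨P, e, e0, h3, fun f => by rw [ord_res h3 h2, hπ]⟩

/-- the residue field -/
theorem ex_rf (P : Place K) (hk : ∀ a, algebraMap k K a ∈ P.ring) :
    ∃ (κ : Type) (_ : Field κ) (_ : Algebra k κ) (O : Subalgebra k K) (r : O →ₐ[k] κ),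
      (∀ f, f ∈ O ↔ f ∈ P.ring) ∧ ∀ f : O, r f ≠ 0 ↔ P.val f = 1 := by
  let O : Subalgebra k K := { P.ring.toSubring with algebraMap_mem' := hk }
  let ρ : O →+* IsLocalRing.ResidueField P.ring :=
    (IsLocalRing.residue _).comp (O.val.toRingHom.codRestrict P.ring fun f => f.2)
  let _ := (ρ.comp (algebraMap k O)).toAlgebra
  refine ⟨_, inferInstance, inferInstance, O, ⟨ρ, fun _ => rfl⟩, fun _ => Iff.rfl, fun f => ?_⟩
  refine (IsLocalRing.residue_ne_zero_iff_isUnit (R := P.ring) ⟨f, f.2⟩).trans ?_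
  rw [val_one]
  refine ⟨fun ⟨u, hu⟩ => ?_, fun h => ⟨⟨⟨f, f.2⟩, ⟨_, h.2.2⟩, Subtype.ext (mul_inv_cancel₀ h.1),
    Subtype.ext (inv_mul_cancel₀ h.1)⟩, rfl⟩⟩
  have : ((u⁻¹ : P.ringˣ) : P.ring).1 * f = 1 := by
    simpa [hu] using congrArg Subtype.val u.inv_mul
  exact ⟨right_ne_zero_of_mul_eq_one this, f.2,
    eq_inv_of_mul_eq_one_left this ▸ (u⁻¹ : P.ringˣ).1.2⟩

end Vale.Agent.P270L.PlH
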