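import Vale.Agent.P270L.T.Htb

/-!
# P270L, block T: row CBC
-/

open Set IntermediateField
open Vale.Agent.P297

noncomputable section

namespace Vale.Agent.P270L

namespace CbcH

variable {k k' K K' : Type} [Field k] [Field k'] [Field K] [Field K'] [Algebra k k'] [Algebra k K]
  [Algebra k K'] [Algebra k' K'] [Algebra K K'] [IsScalarTower k K K'] [IsScalarTower k k' K']

theorem up_mem {ι : Type} {x : ι → K} {i : ι} {f : K} (hf : f ∈ ch k x i) :
    algebraMap K K' f ∈ ch k' (up K' x) i := by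
  rw [ch_up (k := k)]
  exact Algebra.subset_adjoin ⟨f, hf, rfl⟩

omit [IsScalarTower k K K'] [IsScalarTower k k' K'] in
theorem ex_le (A : Subalgebra k K) {f : K'} (hf : f ∈ ex k' K K' A) :
    f ∈ Algebra.adjoin k (algebraMap K K' '' A ∪ algebraMap k' K' '' (⊤ : Subalgebra k k')) := by
  induction hf using Algebra.adjoin_induction with
  | mem a ha => exact Algebra.subset_adjoin (.inl ha)
  | algebraMap c => exact Algebra.subset_adjoin (.inr ⟨c, trivial, rfl⟩)
  | add a b _ _ ha hb => exact add_mem ha hb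
  | mul a b _ _ ha hb => exact mul_mem ha hb

/-- extension of a homomorphism on a chart -/
theorem ext_hom (h : BC k k' K K') {ι : Type} (x : ι → K) (i : ι) {E : Type} [CommRing E]
    [Algebra k E] [Algebra k' E] [IsScalarTower k k' E] (f : ch k x i →ₐ[k] E) :
    ∃ g : ch k' (up K' x) i →ₐ[k'] E, ∀ a (ha : a ∈ ch k x i) ha',
      g ⟨algebraMap K K' a, ha'⟩ = f ⟨a, ha⟩ := by
  obtain ⟨g, h1, h2⟩ := h.lift (ch k x i) ⊤ E f
    ((IsScalarTower.toAlgHom k k' E).comp (Subalgebra.val _))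
  have m : ∀ a : ch k' (up K' x) i, (a : K') ∈ Algebra.adjoin k (algebraMap K K' '' ch k x i ∪
      algebraMap k' K' '' (⊤ : Subalgebra k k')) := fun a => ex_le _ (by rw [← ch_up]; exact a.2)
  exact ⟨⟨(g : _ →+* E).comp ((ch k' (up K' x) i).val.toRingHom.codRestrict _ m),
    fun c => h2 ⟨c, trivial⟩ (m (algebraMap _ _ c))⟩, fun a ha ha' => h1 ⟨a, ha⟩ (m ⟨_, ha'⟩)⟩

variable [IsAlgClosed k] [IsAlgClosed k'] [CharZero k]

/-- the degree of a free system does not change -/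
theorem up_dg (hD : DG) (hH : HTB) {ι : Type} {x : ι → K} {p : Cv k x} {p' : Cv k' (up K' x)}
    (hp : p.Up p') {σ : Type} [Fintype σ] {s : σ → K} (hs : Free k x s) :
    p'.dg (up K' s) = p.dg s := by
  have : CharZero k' := charZero_of_injective_algebraMap (algebraMap k k').injective
  obtain ⟨_, _, _, _, bc, hi, hφ⟩ := hp
  obtain ⟨z, hz⟩ := hD.ex k K ι σ x p s hs
  rw [hD.eq k K ι σ x p s z hz, ← (hH k k' p.L p'.L bc p.ff).2 σ z]
  obtain ⟨h0, τ, hτ, e⟩ := hz
  have m : ∀ l, algebraMap K K' (τ * s l) ∈ ch k' (up K' x) p'.i := fun l => hi ▸ up_mem (hτ l)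
  refine hD.eq k' K' ι σ _ p' _ _ ⟨fun c => h0 (funext fun l => by simpa [up] using congrFun c l),
    algebraMap K K' τ, fun l => by simpa [up] using m l, fun l => ?_⟩
  rw [up, e, ← hφ _ (hτ l) (m l)]
  congr 2
  simp [up]

end CbcH

open CbcH in
/-- row CBC -/
theorem cbc_of (hD : DG) (hE : EXU) (hH : HTB) : CBC := by
  intro k k' K K' _ _ _ _ _ _ _ _ _ _ _ _ _ _ h ι x p
  obtain ⟨L', _, _, _, _, _, _, bc⟩ := hE k k' p.L
  have := (hH k k' p.L L' bc p.ff).1
  obtain ⟨g, hg⟩ := ext_hom h x p.i ((IsScalarTower.toAlgHom k p.L L').comp p.φ)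
  have hp : p.Up ⟨L', p.i, g⟩ := ⟨_, _, ‹_›, ‹_›, bc, rfl, hg⟩
  exact ⟨_, hp, fun σ _ s hs => up_dg hD hH hp hs⟩

end Vale.Agent.P270L
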