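import Vale.Agent.P270L.TDefs
import Vale.Agent.P025.R2.H720.Dom

/-!
# P270L, block T: rows EMB and EXU
-/

open Set Cardinal
open scoped TensorProduct

noncomputable section

namespace Vale.Agent.P270L

theorem emb : EMB := by
  intro k _ _ _
  let F := FractionRing (MvPolynomial ℂ k)
  let Ω := AlgebraicClosure F
  have hc : ℵ₀ < #ℂ := by
    rw [mk_complex]
    exact aleph0_lt_continuum
  have h1 : #ℂ ≤ #Ω := mk_le_of_injective (f := fun c => algebraMap F Ω (algebraMap _ F
    (MvPolynomial.X c : MvPolynomial ℂ k))) ((algebraMap F Ω).injective.comp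
      ((IsFractionRing.injective _ F).comp (MvPolynomial.X_injective)))
  have h2 : #Ω ≤ #ℂ := by
    refine (Algebra.IsAlgebraic.cardinalMk_le_max F Ω).trans (max_le ?_ hc.le)
    refine (IsLocalization.cardinalMk_le (nonZeroDivisors (MvPolynomial ℂ k))).trans ?_
    exact MvPolynomial.cardinalMk_le_max.trans (max_le (max_le (mk_le_aleph0.trans hc.le) le_rfl)
      hc.le)
  have : CharZero F := charZero_of_injective_algebraMap (algebraMap k F).injective
  obtain ⟨e⟩ := IsAlgClosed.ringEquiv_of_equiv_of_charZero (K := Ω) (L := ℂ) (hc.trans_le h1)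
    (Cardinal.eq.1 (le_antisymm h2 h1))
  exact ⟨e.toRingHom.comp (algebraMap k Ω)⟩

theorem exu : EXU := by
  intro k k' K _ _ _ _ _ _ _
  have := P025H720.isDomain_tensor k K k'
  let T := K ⊗[k] k'
  let K' := FractionRing T
  let i := IsScalarTower.toAlgHom k T K'
  have hi : Function.Injective i := IsFractionRing.injective T K'
  let a : K →ₐ[k] K' := i.comp Algebra.TensorProduct.includeLeft
  let b : k' →ₐ[k] K' := i.comp Algebra.TensorProduct.includeRight
  let _ : Algebra k' K' := b.toRingHom.toAlgebra
  have t1 : IsScalarTower k k' K' := .of_algebraMap_eq fun c => (b.commutes c).symm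
  refine ⟨K', inferInstance, inferInstance, inferInstance, inferInstance, inferInstance, t1, ?_, ?_⟩
  · have h := (Subalgebra.LinearDisjoint.include_range k K k').map i hi
    rw [← AlgHom.range_comp, ← AlgHom.range_comp] at h
    exact h
  · have key : ∀ t : T, algebraMap T K' t ∈ ex k' K K' univ := by
      intro t
      induction t using TensorProduct.induction_on with
      | zero => rw [map_zero]; exact zero_mem _
      | add x y hx hy => rw [map_add]; exact add_mem hx hy
      | tmul x y =>
        have : algebraMap T K' (x ⊗ₜ y) = algebraMap K K' x * algebraMap k' K' y := by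
          show _ = algebraMap T K' (x ⊗ₜ 1) * algebraMap T K' (1 ⊗ₜ y)
          rw [← map_mul, Algebra.TensorProduct.tmul_mul_tmul, mul_one, one_mul]
        rw [this]
        exact mul_mem (Algebra.subset_adjoin ⟨x, trivial, rfl⟩) (Subalgebra.algebraMap_mem _ y)
    intro f
    obtain ⟨x, y, hy, rfl⟩ := IsFractionRing.div_surjective T f
    have h0 : algebraMap T K' y ≠ 0 := IsFractionRing.to_map_ne_zero_of_mem_nonZeroDivisors hy
    refine ⟨_, key y, h0, ?_⟩
    rw [mul_div_cancel₀ _ h0]
    exact key x

end Vale.Agent.P270L
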