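import Vale.Agent.P270L.T.Lin
import Mathlib.RingTheory.Algebraic.Cardinality
import Mathlib.SetTheory.Cardinal.Subfield
import Mathlib.FieldTheory.AlgebraicClosure

/-!
# P270L, block T: row EXD
-/

open Set IntermediateField TensorProduct Cardinal
open scoped IntermediateField.algebraAdjoinAdjoin

noncomputable section

namespace Vale.Agent.P270L

namespace ExdH

variable {k k' K' : Type} [Field k] [Field k'] [Field K'] [Algebra k k'] [Algebra k K']
  [Algebra k' K'] [IsScalarTower k k' K'] {τ : Type}

theorem li (w : τ → K') (s : Set (MvPolynomial τ k))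
    (hs : Ideal.span (MvPolynomial.map (algebraMap k k') '' s) =
      RingHom.ker (MvPolynomial.aeval w : MvPolynomial τ k' →ₐ[k'] K'))
    {ι : Type} (c : Module.Basis ι k k') :
    LinearIndependent (Algebra.adjoin k (range w)) fun i => algebraMap k' K' (c i) := by
  let A := Algebra.adjoin k (range w)
  let v : τ → A := fun t => ⟨w t, Algebra.subset_adjoin ⟨t, rfl⟩⟩
  let ψ : A ⊗[k] k' →ₐ[A] K' := Algebra.TensorProduct.lift (Algebra.ofId A K')
    (IsScalarTower.toAlgHom k k' K') fun _ _ => .all _ _
  let φ : MvPolynomial τ k' →+* A ⊗[k] k' :=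
    MvPolynomial.eval₂Hom (Algebra.TensorProduct.includeRight (R := k) (A := A)).toRingHom
      fun t => v t ⊗ₜ 1
  have h1 : ∀ p, ψ (φ p) = MvPolynomial.aeval w p := by
    intro p
    induction p using MvPolynomial.induction_on with
    | C a => simp [φ, ψ]
    | add p q hp hq => simp only [map_add, hp, hq]
    | mul_X p t hp =>
      rw [map_mul, map_mul, hp, map_mul]
      simp [φ, ψ, v]
  have h2 : ∀ p : MvPolynomial τ k, φ (MvPolynomial.map (algebraMap k k') p) =
      MvPolynomial.aeval v p ⊗ₜ 1 := by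
    intro p
    induction p using MvPolynomial.induction_on with
    | C a => simp [φ, Algebra.algebraMap_eq_smul_one, smul_tmul]
    | add p q hp hq => simp only [map_add, hp, hq, add_tmul]
    | mul_X p t hp =>
      rw [map_mul, map_mul, hp, map_mul]
      simp [φ]
  have h3 : ∀ p : MvPolynomial τ k, (MvPolynomial.aeval v p : A) = MvPolynomial.aeval w p :=
    fun p => by
      rw [← Subalgebra.val_apply, ← AlgHom.comp_apply, MvPolynomial.comp_aeval]
      rfl
  have h4 : Function.Surjective φ := by
    intro t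
    induction t with
    | zero => exact ⟨0, map_zero _⟩
    | add s t hs ht =>
      obtain ⟨p, rfl⟩ := hs
      obtain ⟨q, rfl⟩ := ht
      exact ⟨p + q, map_add _ _ _⟩
    | tmul a b =>
      obtain ⟨p, hp⟩ : a.1 ∈ (MvPolynomial.aeval w : MvPolynomial τ k →ₐ[k] K').range := by
        rw [← Algebra.adjoin_range_eq_range_aeval]
        exact a.2
      refine ⟨MvPolynomial.map (algebraMap k k') p * MvPolynomial.C b, ?_⟩
      rw [map_mul, h2, show MvPolynomial.aeval v p = a from Subtype.ext ((h3 p).trans hp)]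
      simp [φ]
  have h5 : Function.Injective ψ := by
    rw [injective_iff_map_eq_zero]
    intro t ht
    obtain ⟨p, rfl⟩ := h4 t
    have hp : p ∈ Ideal.span (MvPolynomial.map (algebraMap k k') '' s) := by
      rw [hs, RingHom.mem_ker, ← h1, ht]
    refine (Ideal.span_le (I := RingHom.ker φ)).2 ?_ hp
    rintro _ ⟨q, hq, rfl⟩
    have h6 : MvPolynomial.map (algebraMap k k') q ∈
        RingHom.ker (MvPolynomial.aeval w : MvPolynomial τ k' →ₐ[k'] K') :=
      hs ▸ Ideal.subset_span ⟨q, hq, rfl⟩
    rw [RingHom.mem_ker, MvPolynomial.aeval_map_algebraMap, ← h3, ZeroMemClass.coe_eq_zero] at h6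
    rw [SetLike.mem_coe, RingHom.mem_ker, h2, h6, zero_tmul]
  have := (Algebra.TensorProduct.basis A c).linearIndependent.map' ψ.toLinearMap
    (LinearMap.ker_eq_bot.2 h5)
  have e : (ψ.toLinearMap ∘ Algebra.TensorProduct.basis A c) = fun i => algebraMap k' K' (c i) := by
    ext i
    simp [ψ]
  rwa [e] at this

theorem bc (w : τ → K') (s : Set (MvPolynomial τ k))
    (hs : Ideal.span (MvPolynomial.map (algebraMap k k') '' s) =
      RingHom.ker (MvPolynomial.aeval w : MvPolynomial τ k' →ₐ[k'] K'))
    (hw : adjoin k' (range w) = ⊤) : BC k k' (adjoin k (range w)) K' := by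
  constructor
  · let c := Module.Basis.ofVectorSpace k k'
    have h := (LinearIndependent.iff_fractionRing _ (adjoin k (range w))).1 (li w s hs c)
    have e : (IsScalarTower.toAlgHom k (adjoin k (range w)) K').range =
        (adjoin k (range w)).toSubalgebra := (adjoin k (range w)).toSubalgebra.range_val
    rw [e]
    exact Subalgebra.LinearDisjoint.of_basis_right _ _ (c.map (AlgEquiv.ofInjective
      (IsScalarTower.toAlgHom k k' K') (algebraMap k' K').injective).toLinearEquiv) h
  · intro f
    have hle : Algebra.adjoin k' (range w) ≤ ex k' (adjoin k (range w)) K' univ :=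
      Algebra.adjoin_mono fun a ha => ⟨⟨a, subset_adjoin _ _ ha⟩, trivial, rfl⟩
    obtain ⟨r, hr, b, hb, rfl⟩ := (mem_adjoin_iff_div (F := k') (S := range w) (x := f)).1
      (hw ▸ mem_top)
    by_cases h0 : b = 0
    · exact ⟨1, one_mem _, one_ne_zero, by simp [h0]⟩
    · exact ⟨b, hle hb, h0, by rw [mul_div_cancel₀ _ h0]; exact hle hr⟩

omit [Algebra k k'] [Algebra k K'] [IsScalarTower k k' K'] in
theorem alg0 {K : Type} [Field K] [Algebra k K] [Algebra K K'] (A : Subalgebra k K)
    (A' : Subalgebra k' K') (π : K' →ₗ[K] K) (hA : ∀ a : A', π a ∈ A) (f : K) (p : Polynomial A')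
    (h1 : π p.leadingCoeff ≠ 0) (h0 : Polynomial.aeval (algebraMap K K' f) p = 0) :
    IsAlgebraic A f := by
  obtain ⟨g, hg⟩ : ∃ g : ℕ → A, ∀ i, (g i : K) = π (p.coeff i) :=
    ⟨fun i => ⟨_, hA (p.coeff i)⟩, fun _ => rfl⟩
  have hl : g p.natDegree ≠ 0 := fun e => h1 ((hg _).symm.trans (congrArg Subtype.val e))
  refine ⟨∑ i ∈ Finset.range (p.natDegree + 1), Polynomial.monomial i (g i), fun e => hl ?_, ?_⟩
  · have := congrArg (fun q => Polynomial.coeff q p.natDegree) e
    simpa [Polynomial.finsetSum_coeff, Polynomial.coeff_monomial] using this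
  · rw [Polynomial.aeval_eq_sum_range] at h0
    have := congrArg π h0
    rw [map_sum, map_zero] at this
    rw [map_sum, ← this]
    refine Finset.sum_congr rfl fun i _ => ?_
    rw [Polynomial.aeval_monomial, Subalgebra.smul_def, smul_eq_mul, ← map_pow (algebraMap K K'),
      mul_comm _ (algebraMap K K' _), ← Algebra.smul_def (f ^ i), map_smul, smul_eq_mul, ← hg,
      mul_comm]
    rfl

/-- algebraic elements come down -/
theorem alg {K : Type} [Field K] [Algebra k K] [Algebra K K'] [IsScalarTower k K K']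
    [IsAlgClosed k] [IsAlgClosed k'] [CharZero k]
    (h : BC k k' K K') {ι : Type} (y : ι → K) (f : K)
    (hf : IsAlgebraic (adjoin k' (range (up K' y))) (algebraMap K K' f)) :
    IsAlgebraic (adjoin k (range y)) f := by
  obtain ⟨p, hp, h0⟩ := isAlgebraic_adjoin_iff.1 hf
  have hm : ∀ a : Algebra.adjoin k' (range (up K' y)),
      a.1 ∈ ex k' K K' (Algebra.adjoin k (range y)) := fun a => by
    rw [ex_adjoin, ex, ← range_comp]
    exact a.2
  obtain ⟨μ, π, hπ, h1⟩ := h.sep (Algebra.adjoin_mono (image_mono (subset_univ _))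
    (hm p.leadingCoeff)) fun e => hp (Polynomial.leadingCoeff_eq_zero.1 (Subtype.ext e))
  have hA : ∀ a : Algebra.adjoin k' (range (up K' y)), π a ∈ Algebra.adjoin k (range y) :=
    fun a => lin.mem k k' K K' h μ π hπ _ _ (hm a)
  exact isAlgebraic_adjoin_iff.2 (alg0 _ _ π hA f p h1 h0)

theorem fin {k K : Type} [Field k] [Field K] [Algebra k K] (F : IntermediateField k K)
    (h : Algebra.EssFiniteType k K) (ha : ∀ f : K, IsAlgebraic F f) : FiniteDimensional F K := by
  have : Algebra.EssFiniteType F K := .of_comp k _ _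
  obtain ⟨t, ht⟩ := IntermediateField.fg_top F K
  have h : FiniteDimensional F (adjoin F (t : Set K)) :=
    finiteDimensional_adjoin fun x _ => (ha x).isIntegral
  rw [ht] at h
  exact (topEquiv (F := F) (E := K)).toLinearEquiv.finiteDimensional

end ExdH

theorem exd : EXD := by
  classical
  intro k' K' _ _ _ _ _ n y' hy S hS
  let b := Module.finBasis (adjoin k' (range y')) K'
  have hT : (range y' ∪ range b ∪ S).Finite :=
    ((finite_range _).union (finite_range _)).union hS
  have := hT.to_subtype
  let w : (range y' ∪ range b ∪ S : Set K') → K' := Subtype.val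
  have hw : adjoin k' (range w) = ⊤ := by
    rw [eq_top_iff]
    intro f _
    rw [← b.sum_repr f]
    refine sum_mem fun i _ => ?_
    rw [IntermediateField.smul_def, smul_eq_mul]
    exact mul_mem (adjoin.mono k' _ (range w) (fun a ha => ⟨⟨a, .inl (.inl ha)⟩, rfl⟩)
      (b.repr f i).2)
      (subset_adjoin k' (range w) ⟨⟨b i, .inl (.inr ⟨i, rfl⟩)⟩, rfl⟩)
  obtain ⟨s, hs⟩ := (IsNoetherian.noetherian
    (RingHom.ker (MvPolynomial.aeval w : MvPolynomial _ k' →ₐ[k'] K')))
  let F := Subfield.closure (s.biUnion MvPolynomial.coeffs : Set k')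
  let k := algebraicClosure F k'
  have hF : #F ≤ ℵ₀ := (Subfield.cardinalMk_closure_le_max _).trans
    (max_le (Finset.finite_toSet _).lt_aleph0.le le_rfl)
  have hk : Countable k := mk_le_aleph0_iff.1
    ((Algebra.IsAlgebraic.cardinalMk_le_max F k).trans (max_le hF le_rfl))
  have bc := ExdH.bc (k := k) w (MvPolynomial.map (algebraMap k k') ⁻¹' s) (by
    rw [image_preimage_eq_of_subset]
    · exact hs
    · intro p hp
      rw [MvPolynomial.mem_range_map_iff_coeffs_subset]
      intro a ha
      exact ⟨algebraMap F k ⟨a, Subfield.subset_closure (by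
        simpa using ⟨p, hp, ha⟩)⟩, rfl⟩) hw
  have hc : IsAlgClosed k := IsAlgClosure.isAlgClosed F
  let K := adjoin k (range w)
  let y : Fin n → K := fun i => ⟨y' i, subset_adjoin _ _ ⟨⟨y' i, .inl (.inl ⟨i, rfl⟩)⟩, rfl⟩⟩
  refine ⟨k, K, inferInstance, inferInstance, inferInstance, inferInstance, inferInstance,
    inferInstance, inferInstance, inferInstance, hc, hk, bc,
    fun a ha => ⟨⟨a, subset_adjoin _ _ ⟨⟨a, .inr ha⟩, rfl⟩⟩, rfl⟩, y, rfl, ?_⟩
  have h0 : Algebra.IsAlgebraic (adjoin k' (range y')) K' := .of_finite _ _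
  exact ExdH.fin _ (essFiniteType_iff.2 (fg_adjoin_of_finite (finite_range w)))
    fun f => ExdH.alg bc y f (h0.1 _)

end Vale.Agent.P270L
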