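import Vale.Agent.P270L.TDefs

/-!
# P270L, block T: row LIN
-/

open Set IntermediateField TensorProduct

noncomputable section

namespace Vale.Agent.P270L

section

variable {k k' K K' : Type} [Field k] [Field k'] [Field K] [Field K'] [Algebra k k'] [Algebra k K]
  [Algebra k K'] [Algebra k' K'] [Algebra K K'] [IsScalarTower k K K'] [IsScalarTower k k' K']

variable (k k' K K') in
/-- the multiplication map -/
def mm : K ⊗[k] k' →ₐ[K] K' :=
  Algebra.TensorProduct.lift (Algebra.ofId K K') (IsScalarTower.toAlgHom k k' K')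
    fun _ _ => .all _ _

lemma mm_tmul (a : K) (c : k') :
    mm k k' K K' (a ⊗ₜ c) = algebraMap K K' a * algebraMap k' K' c := rfl

lemma BC.inj (h : BC k k' K K') : Function.Injective (mm k k' K K') := by
  have h1 := Subalgebra.linearDisjoint_iff_injective.1 h.ld
  let e := Algebra.TensorProduct.congr
    (AlgEquiv.ofInjective (IsScalarTower.toAlgHom k K K') (algebraMap K K').injective)
    (AlgEquiv.ofInjective (IsScalarTower.toAlgHom k k' K') (algebraMap k' K').injective)
  have : ∀ t, mm k k' K K' t = (IsScalarTower.toAlgHom k K K').range.mulMap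
      (IsScalarTower.toAlgHom k k' K').range (e t) := by
    intro t
    induction t with
    | zero => simp
    | tmul a c => rfl
    | add s t hs ht => rw [map_add, map_add, map_add, hs, ht]
  intro s t hst
  exact e.injective (h1 (by rw [← this, ← this, hst]))

lemma mem_ex_span {A : Submonoid K} {f : K'} (hf : f ∈ ex k' K K' A) :
    f ∈ Submodule.span k' (algebraMap K K' '' A) := by
  have : (Submonoid.closure (algebraMap K K' '' A) : Set K') = algebraMap K K' '' A := by
    rw [← MonoidHom.coe_coe, ← Submonoid.coe_map, Submonoid.closure_eq]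
  rw [← this, ← Algebra.adjoin_eq_span]
  exact hf

lemma ex_mm {f : K'} (hf : f ∈ ex k' K K' univ) : ∃ t, mm k k' K K' t = f := by
  have h := mem_ex_span (A := ⊤) hf
  clear hf
  induction h using Submodule.span_induction with
  | mem x hx => obtain ⟨a, -, rfl⟩ := hx; exact ⟨a ⊗ₜ 1, by simp [mm_tmul]⟩
  | zero => exact ⟨0, map_zero _⟩
  | add x y _ _ hx hy =>
    obtain ⟨s, rfl⟩ := hx; obtain ⟨t, rfl⟩ := hy; exact ⟨s + t, map_add _ _ _⟩
  | smul c x _ hx =>
    obtain ⟨s, rfl⟩ := hx
    exact ⟨1 ⊗ₜ c * s, by simp [mm_tmul, Algebra.smul_def]⟩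

lemma BC.ext_lin (h : BC k k' K K') (l : K ⊗[k] k' →ₗ[K] K) :
    ∃ π : K' →ₗ[K] K, ∀ t, π (mm k k' K K' t) = l t := by
  obtain ⟨g, hg⟩ := (mm k k' K K').toLinearMap.exists_leftInverse_of_injective
    (LinearMap.ker_eq_bot.2 h.inj)
  exact ⟨l ∘ₗ g, fun t => congrArg l (LinearMap.congr_fun hg t)⟩

lemma BC.proj (h : BC k k' K K') (μ : k' →ₗ[k] k) : ∃ π : K' →ₗ[K] K,
    ∀ c, π (algebraMap k' K' c) = algebraMap k K (μ c) := by
  obtain ⟨π, hπ⟩ := h.ext_lin ((AlgebraTensorModule.rid k K K).toLinearMap ∘ₗ μ.baseChange K)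
  refine ⟨π, fun c => ?_⟩
  have := hπ (1 ⊗ₜ c)
  simpa [mm_tmul, Algebra.algebraMap_eq_smul_one] using this

lemma BC.sep (h : BC k k' K K') {b : K'} (hb : b ∈ ex k' K K' univ) (h0 : b ≠ 0) :
    ∃ (μ : k' →ₗ[k] k) (π : K' →ₗ[K] K), (∀ c, π (algebraMap k' K' c) = algebraMap k K (μ c)) ∧
      π b ≠ 0 := by
  obtain ⟨t, rfl⟩ := ex_mm (k := k) hb
  let β := Module.Basis.ofVectorSpace k k'
  let γ := Algebra.TensorProduct.basis K β
  obtain ⟨i, hi⟩ : ∃ i, γ.coord i t ≠ 0 := by
    by_contra hc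
    push Not at hc
    exact h0 (by rw [γ.forall_coord_eq_zero_iff.1 hc, map_zero])
  obtain ⟨π, hπ⟩ := h.ext_lin (γ.coord i)
  refine ⟨β.coord i, π, fun c => ?_, by rwa [hπ]⟩
  have := hπ (1 ⊗ₜ c)
  simpa [mm_tmul, γ, Algebra.algebraMap_eq_smul_one] using this

omit [Algebra k K'] [IsScalarTower k K K'] [IsScalarTower k k' K'] in
lemma pi_mul {μ : k' →ₗ[k] k} {π : K' →ₗ[K] K}
    (h : ∀ c, π (algebraMap k' K' c) = algebraMap k K (μ c)) (c : k') (a : K) :
    π (c • algebraMap K K' a) = μ c • a := by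
  rw [Algebra.smul_def, mul_comm, ← Algebra.smul_def, map_smul, h, Algebra.smul_def (μ c),
    mul_comm, smul_eq_mul]

omit [Algebra k K'] [IsScalarTower k K K'] [IsScalarTower k k' K'] in
lemma pi_mem {μ : k' →ₗ[k] k} {π : K' →ₗ[K] K}
    (h : ∀ c, π (algebraMap k' K' c) = algebraMap k K (μ c)) (A : Submodule k K) {f : K'}
    (hf : f ∈ Submodule.span k' (algebraMap K K' '' A)) : π f ∈ A := by
  suffices H : ∀ c : k', π (c • f) ∈ A by simpa using H 1
  induction hf using Submodule.span_induction with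
  | mem x hx => obtain ⟨a, ha, rfl⟩ := hx; intro c; rw [pi_mul h]; exact A.smul_mem _ ha
  | zero => simp
  | add x y _ _ hx hy => intro c; rw [smul_add, map_add]; exact A.add_mem (hx c) (hy c)
  | smul d x _ hx => intro c; rw [smul_smul]; exact hx _

lemma ex_adjoin (s : Set K) : ex k' K K' (Algebra.adjoin k s) = ex k' K K' s := by
  have := AlgHom.map_adjoin (IsScalarTower.toAlgHom k K K') s
  rw [ex, ex, ← Algebra.adjoin_adjoin_of_tower k (algebraMap K K' '' s)]
  congr 1
  exact congrArg SetLike.coe this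

lemma ch_up {ι : Type} (x : ι → K) (i : ι) : ch k' (up K' x) i = ex k' K K' (ch k x i) := by
  rw [ch, ch, ex_adjoin, ex, ← range_comp]
  congr 2
  funext j
  simp [up]

lemma BC.lift (h : BC k k' K K') (A : Subalgebra k K) (R : Subalgebra k k')
    (E : Type) [CommRing E] [Algebra k E] (f : A →ₐ[k] E) (g : R →ₐ[k] E) :
    ∃ h : Algebra.adjoin k (algebraMap K K' '' A ∪ algebraMap k' K' '' R) →ₐ[k] E,
      (∀ (a : A) ha, h ⟨algebraMap K K' a, ha⟩ = f a) ∧
        ∀ (c : R) hc, h ⟨algebraMap k' K' c, hc⟩ = g c := by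
  let n : A ⊗[k] R →ₐ[k] K' := ((mm k k' K K').restrictScalars k).comp
    (Algebra.TensorProduct.map A.val R.val)
  have hn : Function.Injective n := h.inj.comp
    (map_injective_of_flat_flat A.val.toLinearMap R.val.toLinearMap Subtype.val_injective
      Subtype.val_injective)
  have h1 : ∀ a : A, n (a ⊗ₜ 1) = algebraMap K K' a := fun a => by simp [n, mm_tmul]
  have h2 : ∀ c : R, n (1 ⊗ₜ c) = algebraMap k' K' c := fun a => by simp [n, mm_tmul]
  have hle : Algebra.adjoin k (algebraMap K K' '' A ∪ algebraMap k' K' '' R) ≤ n.range := by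
    rw [Algebra.adjoin_le_iff]
    rintro _ (⟨a, ha, rfl⟩ | ⟨c, hc, rfl⟩)
    exacts [⟨_, h1 ⟨a, ha⟩⟩, ⟨_, h2 ⟨c, hc⟩⟩]
  let e := AlgEquiv.ofInjective n hn
  have he : ∀ t ht, e.symm (Subalgebra.inclusion hle ⟨n t, ht⟩) = t := fun t ht =>
    e.symm_apply_eq.2 rfl
  refine ⟨(Algebra.TensorProduct.productMap f g).comp
    ((e.symm : n.range →ₐ[k] _).comp (Subalgebra.inclusion hle)), fun a ha => ?_, fun c hc => ?_⟩
  · have := he (a ⊗ₜ 1) (h1 a ▸ ha)
    simp only [h1] at this
    exact (congrArg (Algebra.TensorProduct.productMap f g) this).trans (by simp)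
  · have := he (1 ⊗ₜ c) (h2 c ▸ hc)
    simp only [h2] at this
    exact (congrArg (Algebra.TensorProduct.productMap f g) this).trans (by simp)

lemma BC.li (h : BC k k' K K') {ι : Type} {v : ι → K} (hv : LinearIndependent k v) :
    LinearIndependent k' (up K' v) := by
  rw [linearIndependent_iff'] at hv ⊢
  intro s g hg i hi
  refine (Module.forall_dual_apply_eq_zero_iff k _).1 fun μ => ?_
  obtain ⟨π, hπ⟩ := h.proj μ
  refine hv s (fun i => μ (g i)) ?_ i hi
  simpa [up, pi_mul hπ] using congrArg π hg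

lemma ai_iff {R A ι : Type} [CommRing R] [CommRing A] [Algebra R A] (y : ι → A) :
    AlgebraicIndependent R y ↔
      LinearIndependent R fun m : ι →₀ ℕ => m.prod fun i e => y i ^ e := by
  have : Finsupp.linearCombination R (fun m : ι →₀ ℕ => m.prod fun i e => y i ^ e) =
      (MvPolynomial.aeval y).toLinearMap ∘ₗ
        (MvPolynomial.basisMonomials ι R).repr.symm.toLinearMap := by
    ext m
    simp [MvPolynomial.aeval_monomial]
  rw [algebraicIndependent_iff_injective_aeval, LinearIndependent, this, LinearMap.coe_comp,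
    LinearEquiv.coe_coe, EquivLike.injective_comp]
  rfl

lemma BC.ai (h : BC k k' K K') {ι : Type} {y : ι → K} (hy : AlgebraicIndependent k y) :
    AlgebraicIndependent k' (up K' y) := by
  rw [ai_iff] at hy ⊢
  have : (fun m : ι →₀ ℕ => m.prod fun i e => up K' y i ^ e) =
      up K' fun m : ι →₀ ℕ => m.prod fun i e => y i ^ e := by
    funext m
    simp [up, map_finsuppProd]
  exact this ▸ h.li hy

lemma BC.span (h : BC k k' K K') {ι σ : Type} [Finite σ] (y : ι → K) (b : σ → K)
    (hb : Submodule.span (adjoin k (range y)) (range b) = ⊤) :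
    Submodule.span (adjoin k' (range (up K' y))) (range (up K' b)) = ⊤ := by
  set F := adjoin k (range y)
  set F' := adjoin k' (range (up K' y))
  have hF : ∀ c ∈ F, algebraMap K K' c ∈ F' := fun c hc => by
    have : F ≤ (F'.restrictScalars k).comap (IsScalarTower.toAlgHom k K K') := by
      rw [adjoin_le_iff]
      rintro _ ⟨i, rfl⟩
      exact subset_adjoin k' _ ⟨i, rfl⟩
    exact this hc
  set V := Submodule.span F' (range (up K' b))
  have h1 : ∀ a, algebraMap K K' a ∈ V := fun a => by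
    have ha : a ∈ Submodule.span F (range b) := hb ▸ trivial
    induction ha using Submodule.span_induction with
    | mem x hx => obtain ⟨j, rfl⟩ := hx; exact Submodule.subset_span ⟨j, rfl⟩
    | zero => simp
    | add x y _ _ hx hy => rw [map_add]; exact V.add_mem hx hy
    | smul c x _ hx =>
      have := V.smul_mem (⟨_, hF c c.2⟩ : F') hx
      rwa [Subalgebra.smul_def, smul_eq_mul, ← map_mul] at this
  let U := Algebra.adjoin F' (algebraMap K K' '' (⊤ : Submonoid K))
  have h2 : U.toSubmodule ≤ V := fun f hf =>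
    Submodule.span_le.2 (by rintro _ ⟨a, -, rfl⟩; exact h1 a) (mem_ex_span (k' := F') hf)
  have h3 : ∀ f ∈ ex k' K K' univ, f ∈ U := fun f hf =>
    Algebra.span_le_adjoin F' _
      (Submodule.span_subset_span k' F' _ (mem_ex_span (A := ⊤) hf))
  have : FiniteDimensional F' V := FiniteDimensional.span_of_finite _ (finite_range _)
  have hfg : U.toSubmodule.FG :=
    (Submodule.fg_top _).1 (Submodule.finiteDimensional_of_le h2).fg_top
  rw [eq_top_iff]
  intro f _
  obtain ⟨c, hc, c0, hcf⟩ := h.gen f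
  have := U.mul_mem ((IsIntegral.of_mem_of_fg U hfg c (h3 c hc)).inv_mem (h3 c hc)) (h3 _ hcf)
  rw [inv_mul_cancel_left₀ c0] at this
  exact h2 this

lemma BC.fin (h : BC k k' K K') {ι : Type} (y : ι → K)
    [FiniteDimensional (adjoin k (range y)) K] :
    FiniteDimensional (adjoin k' (range (up K' y))) K' ∧
      Module.finrank (adjoin k' (range (up K' y))) K' ≤ Module.finrank (adjoin k (range y)) K := by
  have := h.span y _ (Module.finBasis (adjoin k (range y)) K).span_eq
  exact ⟨⟨this ▸ Submodule.fg_span (finite_range _)⟩, by simpa using finrank_le_of_span_eq_top this⟩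

end

theorem lin : LIN where
  proj _ _ _ _ _ _ _ _ _ _ _ _ _ _ _ _ _ _ h := h.proj
  sep _ _ _ _ _ _ _ _ _ _ _ _ _ _ _ _ _ _ h _ := h.sep
  mem _ _ _ _ _ _ _ _ _ _ _ _ _ _ _ _ _ _ _ _ _ h A _ hf :=
    pi_mem h A.toSubmodule (mem_ex_span (A := A.toSubmonoid) hf)
  ch _ _ _ _ _ _ _ _ _ _ _ _ _ _ _ _ _ _ _ _ := ch_up
  lift _ _ _ _ _ _ _ _ _ _ _ _ _ _ _ _ _ _ h := h.lift
  ai _ _ _ _ _ _ _ _ _ _ _ _ _ _ _ _ _ _ h _ _ := h.ai
  fin _ _ _ _ _ _ _ _ _ _ _ _ _ _ _ _ _ _ h _ y _ := h.fin y

end Vale.Agent.P270L
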