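import Vale.Agent.P270L.T.Plc
import Vale.Agent.P270L.T.Lin
import Vale.Agent.P270L.T.Emb

/-!
# P270L, block T: the row `GAU`
-/

open Set MvPolynomial
open Vale.Agent.P297 (Place)

namespace Vale.Agent.P270L

namespace GauH

open PlH

variable {k k' K K' κ κ' : Type} [Field k] [Field k'] [Field K] [Field K'] [Field κ] [Field κ']
  [Algebra k k'] [Algebra k K] [Algebra k K'] [Algebra k' K'] [Algebra K K'] [IsScalarTower k K K']
  [IsScalarTower k k' K'] [Algebra k κ] [Algebra k κ'] [Algebra k' κ'] [Algebra κ κ']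
  [IsScalarTower k κ κ'] [IsScalarTower k k' κ'] {P : Place K} {A : Subalgebra k K'}

theorem nm (hκ : BC k k' κ κ') {O : Subalgebra k K} (hO : ∀ f, f ∈ O ↔ f ∈ P.ring) (r : O →ₐ[k] κ)
    (h : A →ₐ[k] κ') (m1 : ∀ f ∈ O, algebraMap K K' f ∈ A) (m2 : ∀ c, algebraMap k' K' c ∈ A)
    (h1 : ∀ f hf, h ⟨_, m1 f hf⟩ = algebraMap κ κ' (r ⟨f, hf⟩))
    (h2 : ∀ c, h ⟨_, m2 c⟩ = algebraMap k' κ' c) {b : K'} (hb : b ∈ ex k' K K' univ) (b0 : b ≠ 0) :
    ∃ c : K, c ≠ 0 ∧ ∃ a : A, h a ≠ 0 ∧ b = algebraMap K K' c * a := by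
  classical
  obtain ⟨t, rfl⟩ := ex_mm (k := k) hb
  let β := Module.Basis.ofVectorSpace k k'
  let γ := Algebra.TensorProduct.basis K β
  obtain ⟨m, q1, q2⟩ := (γ.repr t).support.exists_max_image (fun m => P.val (γ.repr t m))
    (Finsupp.support_nonempty_iff.2 fun e => b0 (by rw [γ.repr.map_eq_zero_iff.1 e, map_zero]))
  have c0 := Finsupp.mem_support_iff.1 q1
  have ha : ∀ l, γ.repr t l / γ.repr t m ∈ O := fun l => by
    rw [hO, P.mem_ring_iff, map_div₀, div_le_one₀ ((Valuation.pos_iff _).2 c0)]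
    by_cases e : l ∈ (γ.repr t).support
    · exact q2 l e
    · simp [Finsupp.notMem_support_iff.1 e]
  refine ⟨_, c0, ∑ l ∈ (γ.repr t).support, ⟨_, m1 _ (ha l)⟩ * ⟨_, m2 (β l)⟩, fun e => ?_, ?_⟩
  · obtain ⟨π, hπ⟩ := hκ.proj (β.coord m)
    have := congrArg π e
    simp only [map_sum, map_mul, fun l => h1 _ (ha l), h2, ← Algebra.smul_def, map_smul, hπ, map_zero,
      Module.Basis.coord_apply, Module.Basis.repr_self, Finsupp.single_apply, apply_ite,
      smul_zero, Finset.sum_ite_eq', q1, if_true, map_one, smul_eq_mul, mul_one, mul_zero,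
      div_self c0] at this
    exact one_ne_zero ((map_one r).symm.trans this)
  · conv_lhs => rw [← γ.linearCombination_repr t, Finsupp.linearCombination_apply, Finsupp.sum]
    push_cast
    rw [map_sum, Finset.mul_sum]
    refine Finset.sum_congr rfl fun l _ => ?_
    rw [Algebra.TensorProduct.basis_repr_symm_apply', mm_tmul, ← mul_assoc,
      mul_div_cancel₀ _ ((map_ne_zero _).2 c0)]

/-- the local ring at the kernel of `h` -/
def lr (h : A →ₐ[k] κ') : Subring K' :=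
  { carrier := {f | ∃ s a : A, h s ≠ 0 ∧ s * f = a}
    mul_mem' := fun {f g} ⟨s, a, s0, e⟩ ⟨t, b, t0, e'⟩ => ⟨s * t, a * b,
      by simp [s0, t0], by push_cast; rw [← e, ← e']; ring⟩
    one_mem' := ⟨1, 1, by simp, by simp⟩
    add_mem' := fun {f g} ⟨s, a, s0, e⟩ ⟨t, b, t0, e'⟩ => ⟨s * t, a * t + s * b,
      by simp [s0, t0], by push_cast; rw [← e, ← e']; ring⟩
    zero_mem' := ⟨1, 0, by simp, by simp⟩
    neg_mem' := fun {f} ⟨s, a, s0, e⟩ => ⟨s, -a, s0, by push_cast; rw [← e]; ring⟩ }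

theorem a0 {h : A →ₐ[k] κ'} (a : A) (e : h a ≠ 0) : (a : K') ≠ 0 := fun c => e (by
  rw [show a = 0 from Subtype.ext c, map_zero])

theorem s1 (h : A →ₐ[k] κ') (a : A) : (a : K') ∈ lr h := ⟨1, a, by simp, by simp⟩

theorem s2 {h : A →ₐ[k] κ'} (a : A) (e : h a ≠ 0) : (a : K')⁻¹ ∈ lr h :=
  ⟨a, 1, e, mul_inv_cancel₀ (a0 a e)⟩

theorem plc (S : Subring K') (s3 : ∀ f, algebraMap K K' f ∈ S ↔ f ∈ P.ring)
    (dc : ∀ f : K', f ≠ 0 → ∃ c : K, c ≠ 0 ∧ f / algebraMap K K' c ∈ S ∧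
      (f / algebraMap K K' c)⁻¹ ∈ S) : ∃ P' : Place K', (∀ f, f ∈ P'.ring ↔ f ∈ S) ∧
        ∀ f, P'.ord (algebraMap K K' f) = P.ord f := by
  obtain ⟨π, π0, hπ⟩ := P.exists_ord_eq_one
  have dc' : ∀ f : K', f ≠ 0 → ∃ m : ℤ, f / algebraMap K K' π ^ m ∈ S ∧
      (f / algebraMap K K' π ^ m)⁻¹ ∈ S := fun f f0 => by
    obtain ⟨c, c0, e1, e2⟩ := dc f f0
    obtain ⟨e3, e4⟩ := (P.ord_eq_zero_iff (div_ne_zero c0 (zpow_ne_zero (P.ord c) π0))).1 (by
      rw [P.ord_div c0 (zpow_ne_zero _ π0), ord_zpow, hπ, mul_one, sub_self])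
    have : f / algebraMap K K' π ^ P.ord c =
        f / algebraMap K K' c * algebraMap K K' (c / π ^ P.ord c) := by
      rw [map_div₀, map_zpow₀, div_mul_div_cancel₀ ((map_ne_zero _).2 c0)]
    refine ⟨P.ord c, this ▸ mul_mem e1 ((s3 _).2 e3), ?_⟩
    rw [this, mul_inv, ← map_inv₀]
    exact mul_mem e2 ((s3 _).2 e4)
  have p1 := (s3 π).2 ((P.ord_nonneg_iff π0).1 (by omega))
  obtain ⟨P', e1, e2⟩ := dvr_of ⟨S, fun f => by
      rcases eq_or_ne f 0 with rfl | f0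
      · exact .inl S.zero_mem
      obtain ⟨m, e1, e2⟩ := dc' f f0
      have q := (map_ne_zero (algebraMap K K')).2 π0
      obtain ⟨n, rfl | rfl⟩ := m.eq_nat_or_neg
      · exact .inl (by simpa [q] using mul_mem e1 (pow_mem p1 n))
      · exact .inr (by simpa [q, mul_comm] using mul_mem e2 (pow_mem p1 n))⟩ p1 (fun c => by
      have := P.ord_nonneg_of_mem ((s3 π⁻¹).1 (by rwa [map_inv₀]))
      rw [P.ord_inv] at this
      omega) dc'
  have e3 : ∀ f, f ∈ P'.ring ↔ f ∈ S := fun f => by rw [e1]; rfl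
  exact ⟨P', e3, fun f => by rw [ord_res (fun f => (e3 _).trans (s3 f)) hπ, e2, one_mul]⟩

end GauH

open PlH GauH in
/-- **GAU** -/
theorem gau : GAU := by
  intro k k' K K' _ _ _ _ _ _ _ _ _ _ _ _ _ _ hB n P ⟨hk, d, w, hd, hw, hF⟩
  obtain ⟨κ, _, _, O, r, hO, hr⟩ := ex_rf P hk
  obtain ⟨κ', _, _, _, _, _, _, hκ⟩ := exu k k' κ
  obtain ⟨A, hA, h, m1, m2, h1, h2⟩ : ∃ A : Subalgebra k K', A = Algebra.adjoin k
      (algebraMap K K' '' O ∪ algebraMap k' K' '' (⊤ : Subalgebra k k')) ∧ ∃ (h : A →ₐ[k] κ')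
      (m1 : ∀ f ∈ O, algebraMap K K' f ∈ A) (m2 : ∀ c, algebraMap k' K' c ∈ A),
      (∀ f hf, h ⟨_, m1 f hf⟩ = algebraMap κ κ' (r ⟨f, hf⟩)) ∧
        ∀ c, h ⟨_, m2 c⟩ = algebraMap k' κ' c := by
    obtain ⟨h, h1, h2⟩ := hB.lift O ⊤ κ' ((IsScalarTower.toAlgHom k κ κ').comp r)
      ((IsScalarTower.toAlgHom k k' κ').comp (Subalgebra.val _))
    exact ⟨_, rfl, h, fun f hf => Algebra.subset_adjoin (.inl ⟨f, hf, rfl⟩),
      fun c => Algebra.subset_adjoin (.inr ⟨c, trivial, rfl⟩), fun f hf => h1 ⟨f, hf⟩ _,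
      fun c => h2 ⟨c, trivial⟩ _⟩
  obtain ⟨P', e3, e4⟩ := plc (P := P) (lr h) (fun f => ⟨fun ⟨s, a, s0, e⟩ => by
    by_contra c
    have f0 : f ≠ 0 := fun e => c (e ▸ zero_mem _)
    have i := (hO _).2 ((P.ring.mem_or_inv_mem f).resolve_left c)
    refine s0 ?_
    rw [show s = a * ⟨_, m1 _ i⟩ from Subtype.ext (by
      simp [← e, (map_ne_zero (algebraMap K K')).2 f0]), map_mul, h1 _ i,
      not_not.1 (mt (hr ⟨_, i⟩).1 fun e => c (by simpa using ((val_one P).1 e).2.2)), map_zero,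
      mul_zero], fun e => s1 h ⟨_, m1 f ((hO f).2 e)⟩⟩) fun f f0 => by
    obtain ⟨b, b1, b0, b2⟩ := hB.gen f
    obtain ⟨c, c0, a, ha, e⟩ := nm hκ hO r h m1 m2 h1 h2 b1 b0
    obtain ⟨c', c0', a', ha', e'⟩ := nm hκ hO r h m1 m2 h1 h2 b2 (mul_ne_zero b0 f0)
    have : f / algebraMap K K' (c' / c) = a' * (a : K')⁻¹ := by
      have := a0 a ha
      have := (map_ne_zero (algebraMap K K')).2 c0'
      rw [e] at e'
      rw [map_div₀]
      field_simp
      linear_combination e'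
    refine ⟨c' / c, div_ne_zero c0' c0, this ▸ mul_mem (s1 h a') (s2 a ha), ?_⟩
    rw [this, mul_inv, inv_inv]
    exact mul_mem (s2 a' ha') (s1 h a)
  refine ⟨P', ⟨fun c => (e3 _).2 (s1 h ⟨_, m2 c⟩), d, up K' w, hd,
    fun j => (e3 _).2 (s1 h ⟨_, m1 _ ((hO _).2 (hw j))⟩), fun F F0 => ?_⟩, e4, fun D hD f hf => ?_⟩
  · let u : Fin d → O := fun j => ⟨w j, (hO _).2 (hw j)⟩
    have hi := hκ.ai (y := fun j => r (u j)) (algebraicIndependent_iff.2 fun G e => by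
      by_contra G0
      rw [← comp_aeval_apply] at e
      exact (hr _).2 ((congrArg P.val (comp_aeval_apply u O.val G)).trans (hF G G0)) e)
    let a : A := eval₂Hom ((algebraMap k' K').codRestrict A m2)
      (fun j => ⟨_, m1 _ ((hO _).2 (hw j))⟩) F
    have ha : h a ≠ 0 := fun e => F0 (algebraicIndependent_iff.1 hi F (by
      rw [← e]
      refine ((map_eval₂Hom _ _ h.toRingHom F).trans ?_).symm
      exact eval₂Hom_congr (RingHom.ext h2) (funext fun j => h1 _ _) rfl))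
    rw [show aeval (up K' w) F = a from (map_eval₂Hom ((algebraMap k' K').codRestrict A m2)
      (fun j => ⟨_, m1 _ ((hO _).2 (hw j))⟩) A.val.toRingHom F).symm, val_one, e3, e3]
    exact ⟨a0 a ha, s1 h a, s2 a ha⟩
  · have hA : ∀ a ∈ A, D a ∈ lr h := fun a ha => by
      subst hA
      induction ha using Algebra.adjoin_induction with
      | mem a ha =>
        obtain ⟨a, ha, rfl⟩ | ⟨a, -, rfl⟩ := ha
        · exact (e3 _).1 (hD a ((hO a).1 ha))
        · rw [D.map_algebraMap]; exact zero_mem _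
      | algebraMap a => rw [IsScalarTower.algebraMap_apply k k', D.map_algebraMap]; exact zero_mem _
      | add a b _ _ ha hb => rw [map_add]; exact add_mem ha hb
      | mul a b a1 b1 ha hb =>
        rw [D.leibniz]
        exact add_mem (mul_mem (s1 h ⟨a, a1⟩) hb) (mul_mem (s1 h ⟨b, b1⟩) ha)
    have hf' := (e3 f).1 hf
    obtain ⟨s, a, s0, e⟩ := (e3 f).1 hf
    have : D f = (s : K')⁻¹ * (D a - f * D s) := by
      rw [← e, D.leibniz, smul_eq_mul, smul_eq_mul, add_sub_cancel_right,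
        inv_mul_cancel_left₀ (a0 s s0)]
    rw [e3, this]
    exact mul_mem (s2 s s0) (sub_mem (hA _ a.2) (mul_mem hf' (hA _ s.2)))

theorem gau_of (_ : LIN) : GAU := gau

end Vale.Agent.P270L
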