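import Vale.Agent.P270L.TDefs
import Mathlib.FieldTheory.RatFunc.AsPolynomial
import Mathlib.FieldTheory.PrimitiveElement

/-!
# P270L, block T: good reduction (row GOOD)
-/

open Set IntermediateField Polynomial

noncomputable section

namespace Vale.Agent.P270L

namespace GoodAux

theorem frac {k L : Type} [Field k] [Field L] [Algebra k L] {t : L} (ht : Transcendental k t)
    (c : k⟮t⟯) : ∃ f g : k[X], g.Monic ∧
      c * aeval (AdjoinSimple.gen k t) g = aeval (AdjoinSimple.gen k t) f := by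
  obtain ⟨u, rfl⟩ := (RatFunc.algEquivOfTranscendental t ht).surjective c
  refine ⟨u.num, u.denom, u.monic_denom, ?_⟩
  rw [← RatFunc.algEquivOfTranscendental_algebraMap t ht,
    ← RatFunc.algEquivOfTranscendental_algebraMap t ht, ← map_mul]
  congr 1
  have h := RatFunc.num_div_denom u
  rw [div_eq_iff (RatFunc.algebraMap_ne_zero u.denom_ne_zero)] at h
  exact h.symm

theorem lift_poly {k O F : Type} [Field k] [CommRing O] [CommRing F] [Algebra k O] [Algebra k F]
    (ι : O →ₐ[k] F) (f : F[X]) (h : (f.coeffs : Set F) ⊆ range ι) :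
    ∃ g : O[X], mapAlgHom ι g = f :=
  (lifts_iff_coeffs_subset_range (f := (ι : O →+* F)) f).2 h

/-- the Gauss ring -/
theorem gauss (hW : WEX) {k k' F : Type} [Field k] [Field k'] [Field F] [Algebra k k']
    [Algebra k' F] [Algebra k F] [IsScalarTower k k' F] [IsAlgClosed k] {t : F}
    (ht : Transcendental k' t) {C : Set F} (hC : C.Finite)
    (hf : ∀ c, ∃ f g : k'[X], g.Monic ∧ c * aeval t g = aeval t f) :
    ∃ (w : Wp k k') (O : Type) (_ : CommRing O) (_ : Algebra k O) (ι : O →ₐ[k] F)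
      (red : O →ₐ[k] RatFunc k), Function.Injective ι ∧ Function.Surjective red ∧ C ⊆ range ι ∧
      (∀ c : w.W, ∃ o, ι o = algebraMap k' F c ∧ red o = algebraMap k _ (w.ρ c)) ∧
      ∃ o, ι o = t ∧ red o = RatFunc.X := by
  classical
  choose f g hg hfg using hf
  obtain ⟨w, hw⟩ := hW k k' (⋃ c ∈ C, (((f c).coeffs ∪ (g c).coeffs : Finset k') : Set k'))
    (hC.biUnion fun c _ => Finset.finite_toSet _)
  let ι0 : w.W[X] →ₐ[k] F := ((aeval t).restrictScalars k).comp (mapAlgHom w.W.val)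
  let r1 : w.W[X] →ₐ[k] k[X] := mapAlgHom w.ρ
  let r0 : w.W[X] →ₐ[k] RatFunc k := (IsScalarTower.toAlgHom k k[X] (RatFunc k)).comp r1
  let M : Submonoid w.W[X] := (nonZeroDivisors k[X]).comap r1
  have hM : ∀ y, y ∈ M ↔ r1 y ≠ 0 := fun y => mem_nonZeroDivisors_iff_ne_zero
  have hi0 : Function.Injective ι0 :=
    (transcendental_iff_injective.1 ht).comp (map_injective _ Subtype.val_injective)
  have hu1 : ∀ y : M, IsUnit (ι0 y) := fun y => by
    refine IsUnit.mk0 _ fun h => (hM _).1 y.2 ?_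
    rw [(injective_iff_map_eq_zero ι0).1 hi0 _ h, map_zero]
  have hu2 : ∀ y : M, IsUnit (r0 y) := fun y =>
    IsUnit.mk0 _ (RatFunc.algebraMap_ne_zero ((hM _).1 y.2))
  have hρ : Function.Surjective w.ρ := fun a => ⟨algebraMap k _ a, by simp⟩
  have hr1 : Function.Surjective r1 := map_surjective _ hρ
  refine ⟨w, Localization M, inferInstance, inferInstance, IsLocalization.liftAlgHom hu1,
    IsLocalization.liftAlgHom hu2, ?_, ?_, fun c hc => ?_, fun c => ?_, ?_⟩
  · refine (IsLocalization.lift_injective_iff _).2 fun x y => ⟨fun h => ?_, fun h => ?_⟩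
    · simpa using congrArg (IsLocalization.liftAlgHom (S := Localization M) hu1) h
    · rw [hi0 h]
  · refine (IsLocalization.lift_surjective_iff _).2 fun v => ?_
    obtain ⟨a, ha⟩ := hr1 v.num
    obtain ⟨b, hb⟩ := hr1 v.denom
    refine ⟨(a, ⟨b, (hM _).2 (hb ▸ v.denom_ne_zero)⟩), ?_⟩
    have h := RatFunc.num_div_denom v
    rw [div_eq_iff (RatFunc.algebraMap_ne_zero v.denom_ne_zero)] at h
    change v * algebraMap _ _ (r1 b) = algebraMap _ _ (r1 a)
    rw [ha, hb, h]
  · have hs : (((f c).coeffs ∪ (g c).coeffs : Finset k') : Set k') ⊆ w.W :=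
      (subset_biUnion_of_mem (u := fun c => (((f c).coeffs ∪ (g c).coeffs : Finset k') : Set k'))
        hc).trans hw
    rw [Finset.coe_union, union_subset_iff] at hs
    obtain ⟨a, ha⟩ := lift_poly w.W.val _ fun x hx => ⟨⟨x, hs.1 hx⟩, rfl⟩
    obtain ⟨b, hb⟩ := lift_poly w.W.val _ fun x hx => ⟨⟨x, hs.2 hx⟩, rfl⟩
    have hbm : b.Monic := monic_of_injective (f := (w.W.val : w.W →+* k')) Subtype.val_injective
      (by have := hg c; rw [← hb] at this; exact this)
    have hb' : b ∈ M := (hM _).2 (hbm.map _).ne_zero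
    refine ⟨IsLocalization.mk' _ a ⟨b, hb'⟩, ?_⟩
    rw [IsLocalization.liftAlgHom_apply, IsLocalization.lift_mk'_spec]
    change aeval t (mapAlgHom w.W.val a) = aeval t (mapAlgHom w.W.val b) * c
    rw [ha, hb, mul_comm, hfg]
  · refine ⟨algebraMap w.W[X] _ (Polynomial.C c), ?_, ?_⟩
    · simp [ι0]
    · simp [r0, r1]
  · refine ⟨algebraMap w.W[X] _ X, ?_, ?_⟩
    · simp [ι0]
    · simp [r0, r1]

/-- the factors of a separable polynomial -/
theorem split {E : Type} [Field E] {P : E[X]} (hm : P.Monic) (hs : P.Separable) :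
    ∃ s : Finset E[X], (∀ p ∈ s, Irreducible p ∧ p ∣ P) ∧ (∀ p ∈ s, ∀ q ∈ s, p ≠ q → IsCoprime p q) ∧
      ∑ p ∈ s, p.natDegree = P.natDegree := by
  classical
  have h1 := fun p => Polynomial.mem_normalizedFactors_iff (p := p) hm.ne_zero
  have hn := (UniqueFactorizationMonoid.squarefree_iff_nodup_normalizedFactors hm.ne_zero).1
    hs.squarefree
  refine ⟨⟨_, hn⟩, fun p hp => ⟨((h1 p).1 hp).1, ((h1 p).1 hp).2.2⟩, fun p hp q hq h => ?_, ?_⟩
  · obtain ⟨hp1, hp2, -⟩ := (h1 p).1 hp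
    obtain ⟨hq1, hq2, -⟩ := (h1 q).1 hq
    exact hp1.coprime_iff_not_dvd.2 fun hd =>
      h (eq_of_monic_of_associated hp2 hq2 (hp1.associated_of_dvd hq1 hd))
  · have h2 := UniqueFactorizationMonoid.prod_normalizedFactors_eq hm.ne_zero
    rw [hm.normalize_eq_self] at h2
    have h3 := natDegree_multiset_prod_of_monic _ fun p hp => ((h1 p).1 hp).2.1
    rw [h2] at h3
    exact h3.symm

/-- the reduction of a simple extension -/
theorem red_ex {k F L' E O : Type} [Field k] [Field F] [Field L'] [Field E] [CommRing O]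
    [Algebra k F] [Algebra k L'] [Algebra F L'] [IsScalarTower k F L'] [Algebra k E] [Algebra k O]
    (ι : O →ₐ[k] F) (red : O →ₐ[k] E) (hι : Function.Injective ι) (hr : Function.Surjective red)
    (θ : L') (hθ : IsIntegral F θ) (P a b : O[X]) (hP : mapAlgHom ι P = minpoly F θ)
    (hab : a * P + b * derivative P = 1) :
    ∃ (φ : O[X] →ₐ[k] L') (J : Type) (_ : Fintype J) (L : J → Type) (_ : ∀ j, Field (L j))
      (_ : ∀ j, Algebra k (L j)) (_ : ∀ j, Algebra E (L j)) (_ : ∀ j, IsScalarTower k E (L j))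
      (r : ∀ j, φ.range →ₐ[k] L j), (∀ q, φ q = aeval θ (mapAlgHom ι q)) ∧
      (∀ j o h, r j ⟨φ (C o), h⟩ = algebraMap E (L j) (red o)) ∧
      (∀ v : ∀ j, L j, ∃ b, ∀ j, r j b = v j) ∧ (∀ j, FiniteDimensional E (L j)) ∧
      ∑ j, Module.finrank E (L j) = (minpoly F θ).natDegree := by
  have hPm : P.Monic := monic_of_injective (f := (ι : O →+* F)) hι
    (by have := minpoly.monic hθ; rw [← hP] at this; exact this)
  have hs : (P.map (red : O →+* E)).Separable := Separable.map ⟨a, b, hab⟩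
  obtain ⟨s, h1, h2, h3⟩ := split (hPm.map _) hs
  have : ∀ j : s, Fact (Irreducible j.1) := fun j => ⟨(h1 j.1 j.2).1⟩
  let φ : O[X] →ₐ[k] L' := ((aeval θ).restrictScalars k).comp (mapAlgHom ι)
  let ψ : ∀ j : s, O[X] →ₐ[k] AdjoinRoot j.1 := fun j =>
    ((AdjoinRoot.mkₐ j.1).restrictScalars k).comp (mapAlgHom red)
  have hk : ∀ j, RingHom.ker φ.rangeRestrict.toRingHom ≤ RingHom.ker (ψ j).toRingHom := by
    intro j q hq
    have hq' : aeval θ (mapAlgHom ι q) = 0 := congrArg Subtype.val hq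
    have hd := minpoly.dvd F θ hq'
    rw [← hP] at hd
    have hd' : P ∣ q := (map_dvd_map (ι : O →+* F) hι hPm).1 hd
    exact AdjoinRoot.mk_eq_zero.2 ((h1 j.1 j.2).2.trans (Polynomial.map_dvd _ hd'))
  have hr' := fun j q => AlgHom.liftOfSurjective_apply φ.rangeRestrict
    φ.rangeRestrict_surjective (ψ j) (hk j) q
  refine ⟨φ, s, inferInstance, fun j => AdjoinRoot j.1, inferInstance, inferInstance, inferInstance,
    inferInstance, fun j => AlgHom.liftOfSurjective φ.rangeRestrict φ.rangeRestrict_surjective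
      (ψ j) (hk j), fun q => rfl, fun j o h => ?_, fun v => ?_, fun j => ?_, ?_⟩
  · refine (hr' j (C o)).trans ?_
    simp [ψ]
  · obtain ⟨q, hq⟩ := Ideal.pi_quotient_surjective (I := fun j : s => Ideal.span {j.1})
      (fun i j h => (Ideal.isCoprime_span_singleton_iff _ _).2
        (h2 _ i.2 _ j.2 fun e => h (Subtype.ext e))) v
    obtain ⟨q, rfl⟩ := map_surjective (red : O →+* E) hr q
    exact ⟨φ.rangeRestrict q, fun j => (hr' j q).trans (hq j)⟩
  · exact (AdjoinRoot.powerBasis (h1 j.1 j.2).1.ne_zero).finite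
  · rw [← hP, coe_mapAlgHom, hPm.natDegree_map, ← hPm.natDegree_map (red : O →+* E), ← h3,
      ← Finset.sum_coe_sort s]
    exact Finset.sum_congr rfl fun j _ => (AdjoinRoot.powerBasis (h1 j.1 j.2).1.ne_zero).finrank

theorem rat {k L : Type} [Field k] [Field L] [Algebra k L] [Algebra (RatFunc k) L]
    [IsScalarTower k (RatFunc k) L] [FiniteDimensional (RatFunc k) L] {x : L}
    (hx : x = algebraMap (RatFunc k) L RatFunc.X) : Transcendental k x ∧
      FiniteDimensional k⟮x⟯ L ∧ Module.finrank k⟮x⟯ L = Module.finrank (RatFunc k) L := by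
  have ht : Transcendental k x := by
    rw [hx, transcendental_algebraMap_iff (algebraMap (RatFunc k) L).injective]
    exact RatFunc.transcendental_X
  have h : Module.finrank (RatFunc k) L = Module.finrank k⟮x⟯ L := by
    refine Algebra.finrank_eq_of_equiv_equiv (RatFunc.algEquivOfTranscendental x ht).toRingEquiv
      (RingEquiv.refl L) (IsLocalization.ringHom_ext (nonZeroDivisors k[X])
        (Polynomial.ringHom_ext (fun a => ?_) ?_))
    · simp [← RatFunc.algebraMap_eq_C, ← IsScalarTower.algebraMap_apply]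
    · simp [← hx]
  exact ⟨ht, Module.finite_of_finrank_pos (h ▸ Module.finrank_pos), h.symm⟩

end GoodAux

open GoodAux in
theorem good_of (hW : WEX) : GOOD := by
  intro k k' L' _ _ _ _ _ _ _ _ _ t ht hfin S hS
  classical
  have : CharZero k'⟮t⟯ := charZero_of_injective_algebraMap (algebraMap k _).injective
  have : IsScalarTower k k'⟮t⟯ L' := IsScalarTower.of_algebraMap_eq fun _ => rfl
  obtain ⟨θ, hθ⟩ := Field.exists_primitive_element k'⟮t⟯ L'
  have hi : IsIntegral k'⟮t⟯ θ := .of_finite _ _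
  obtain ⟨a, b, hab⟩ : (minpoly k'⟮t⟯ θ).Separable := Algebra.IsSeparable.isSeparable _ θ
  have hq : ∀ s : L', ∃ q : k'⟮t⟯[X], aeval θ q = s := fun s => by
    have h : s ∈ (k'⟮t⟯⟮θ⟯).toSubalgebra := hθ ▸ mem_top
    rwa [adjoin_simple_toSubalgebra_of_isAlgebraic hi.isAlgebraic,
      Algebra.adjoin_singleton_eq_range_aeval] at h
  choose q hq using hq
  have hg : Transcendental k' (AdjoinSimple.gen k' t) :=
    (transcendental_algebraMap_iff (algebraMap k'⟮t⟯ L').injective).1 ht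
  obtain ⟨w, O, _, _, ι, red, hι, hr, hC, hw, o, ho1, ho2⟩ := gauss (k := k) hW hg
    (C := ((minpoly k'⟮t⟯ θ).coeffs ∪ (a.coeffs ∪ b.coeffs)) ∪ ⋃ s ∈ S, (q s).coeffs)
    (((Finset.finite_toSet _).union ((Finset.finite_toSet _).union (Finset.finite_toSet _))).union
      (hS.biUnion fun _ _ => Finset.finite_toSet _)) (frac ht)
  simp only [union_subset_iff, iUnion_subset_iff] at hC
  obtain ⟨P, hP⟩ := lift_poly ι _ hC.1.1
  obtain ⟨a, rfl⟩ := lift_poly ι _ hC.1.2.1
  obtain ⟨b, rfl⟩ := lift_poly ι _ hC.1.2.2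
  obtain ⟨φ, J, _, L, _, _, _, _, r, h1, h2, h3, h4, h5⟩ := red_ex ι red hι hr θ hi P a b hP
    (map_injective (ι : O →+* k'⟮t⟯) hι (by simpa [← hP, derivative_map] using hab))
  have h6 : ∀ o, φ (C o) = algebraMap _ L' (ι o) := fun o => by simp [h1]
  have h7 : ∀ j x o (h : x = φ (C o)) hx, r j ⟨x, hx⟩ = algebraMap _ (L j) (red o) := by
    rintro j _ o rfl hx
    exact h2 j o hx
  choose ω hω1 hω2 using hw
  have h8 : ∀ c : w.W, algebraMap k' L' c = φ (C (ω c)) := fun c => by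
    rw [h6, hω1, ← IsScalarTower.algebraMap_apply]
  have h9 : t = φ (C o) := by rw [h6, ho1]; rfl
  have h10 := fun j => rat ((h7 j t o h9 ⟨_, h9.symm⟩).trans (congrArg _ ho2))
  refine ⟨⟨w, φ.range, fun c => ⟨_, (h8 c).symm⟩, J, L, r, fun j c => ?_, h3⟩, ⟨_, h9.symm⟩,
    fun s hs => ?_, fun j => ⟨(h10 j).1, (h10 j).2.1⟩, ?_⟩
  · refine (h7 j _ _ (h8 c) _).trans ?_
    rw [hω2, ← IsScalarTower.algebraMap_apply]
  · obtain ⟨p, hp⟩ := lift_poly ι _ (hC.2 s hs)
    exact ⟨p, by rw [← hq s, ← hp]; exact h1 p⟩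
  · rw [← (Field.primitive_element_iff_minpoly_natDegree_eq _ θ).1 hθ, ← h5]
    exact Finset.sum_congr rfl fun j _ => (h10 j).2.2

end Vale.Agent.P270L
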