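import Vale.Agent.P270L.T.Lin
import Vale.Agent.P270L.T.Hg

/-!
# P270L, block T: row HTB
-/

open Set IntermediateField
open Vale.Agent.P297

noncomputable section

namespace Vale.Agent.P270L

namespace HtbH

variable {k k' L L' : Type} [Field k] [Field k'] [Field L] [Field L'] [Algebra k k'] [Algebra k L]
  [Algebra k L'] [Algebra k' L'] [Algebra L L'] [IsScalarTower k L L'] [IsScalarTower k k' L']

theorem tr (h : BC k k' L L') {t : L} (ht : Transcendental k t) :
    Transcendental k' (algebraMap L L' t) :=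
  algebraicIndependent_unique_type_iff.1
    (h.ai (y := fun _ : Unit => t) (algebraicIndependent_unique_type_iff.2 ht))

theorem fin (h : BC k k' L L') (t : L) (hf : FiniteDimensional k⟮t⟯ L) :
    FiniteDimensional k'⟮algebraMap L L' t⟯ L' ∧
      Module.finrank k'⟮algebraMap L L' t⟯ L' ≤ Module.finrank k⟮t⟯ L := by
  have e1 : range (fun _ : Unit => t) = {t} := range_const
  have e2 : range (up L' fun _ : Unit => t) = {algebraMap L L' t} := range_const
  have h1 : FiniteDimensional (adjoin k (range fun _ : Unit => t)) L := by rwa [e1]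
  have h2 := h.fin (fun _ : Unit => t)
  rwa [e1, e2] at h2

theorem ff (h : BC k k' L L') [IsFF k L] : IsFF k' L' := by
  obtain ⟨t, ht⟩ := IsFF.exists_transcendental (k := k) (E := L)
  exact .of_finiteDimensional (tr h ht) (fin h t (IsFF.finiteDimensional ht)).1

theorem ht_const (c : k') : ht k' ![1, algebraMap k' L' c] = 0 := by
  have : ∀ P : PlaceOver k' L', mx P.1 ![1, algebraMap k' L' c] = 0 := fun P => by
    rw [HgH.mx_eq P.1 (l := 0)]
    · simp
    · intro m
      fin_cases m
      · exact le_rfl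
      · simpa using (P.1.mem_ring_iff _).1 (P.2 c)
  simp [ht, this]

/-- the reduction of the ring generated by `L` and `W` to `L` -/
def red (h : BC k k' L L') (w : Wp k k') : Red k k' L' where
  toWp := w
  B := Algebra.adjoin k (algebraMap L L' '' (⊤ : Subalgebra k L) ∪ algebraMap k' L' '' w.W)
  hW c := Algebra.subset_adjoin (.inr ⟨c, c.2, rfl⟩)
  J := Unit
  L _ := L
  r _ := (h.lift ⊤ w.W L (Subalgebra.val _) ((Algebra.ofId k L).comp w.ρ)).choose
  hr _ c := (h.lift ⊤ w.W L (Subalgebra.val _) ((Algebra.ofId k L).comp w.ρ)).choose_spec.2 c _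
  on v := ⟨⟨algebraMap L L' (v ()), Algebra.subset_adjoin (.inl ⟨_, trivial, rfl⟩)⟩, fun _ =>
    (h.lift ⊤ w.W L (Subalgebra.val _) ((Algebra.ofId k L).comp w.ρ)).choose_spec.1 ⟨_, trivial⟩ _⟩

theorem red_mem (h : BC k k' L L') (w : Wp k k') (a : L) : algebraMap L L' a ∈ (red h w).B :=
  Algebra.subset_adjoin (.inl ⟨_, trivial, rfl⟩)

theorem red_up (h : BC k k' L L') (w : Wp k k') (a : L) :
    (red h w).r () ⟨_, red_mem h w a⟩ = a :=
  (h.lift ⊤ w.W L (Subalgebra.val _) ((Algebra.ofId k L).comp w.ρ)).choose_spec.1 ⟨_, trivial⟩ _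

variable [IsAlgClosed k] [IsAlgClosed k'] [CharZero k]

/-- semicontinuity for the reduction of `L'` to `L` -/
theorem semi (hS : SEMI) (h : BC k k' L L') [IsFF k L] (w : Wp k k') {σ : Type} [Fintype σ]
    (z' : σ → (red h w).B) (z : σ → L) (hz : ∀ l, (red h w).r () (z' l) = z l) (h0 : z ≠ 0) :
    ht k z ≤ ht k' fun l => (z' l : L') := by
  have := ff h
  have e : (fun l => (red h w).r () (z' l)) = z := funext hz
  have h1 := hS k k' L' (red h w) (fun _ => ‹IsFF k L›) σ z' fun _ => e ▸ h0
  have h2 : ∑ j, ht k (fun l => (red h w).r j (z' l)) = ht k z :=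
    (Fintype.sum_unique (ι := Unit) _).trans (congrArg (ht (L := L) k) e)
  exact h2 ▸ h1

theorem le (h : BC k k' L L') [IsFF k L] {σ : Type} [Fintype σ] (z : σ → L) (h0 : z ≠ 0) :
    ht k' (up L' z) ≤ ht k z := by
  have hf := ff h
  have : CharZero k' := charZero_of_injective_algebraMap (algebraMap k k').injective
  have h1 : up L' z ≠ 0 := fun c => h0 (funext fun l => by simpa [up] using congrFun c l)
  obtain ⟨a, b, hab⟩ := hg.gen k k' Unit σ (fun _ => L') (fun _ => up L' z) fun _ => h1
  obtain ⟨hb, he⟩ := hab ()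
  have e : ∀ a : σ → k, ∑ l, algebraMap k k' (a l) • up L' z l = algebraMap L L' (∑ l, a l • z l) :=
    fun a => by simp [up, map_sum, Algebra.smul_def, ← IsScalarTower.algebraMap_apply]
  rw [e] at hb
  rw [e, e] at he
  set A := ∑ l, a l • z l
  set B := ∑ l, b l • z l
  have hB : B ≠ 0 := fun c => hb (by simp [c])
  have h2 : ht k' ![algebraMap L L' B, algebraMap L L' A] = ht k' ![1, algebraMap L L' (A / B)] := by
    rw [← hg.smul k' L' hf _ ![1, algebraMap L L' (A / B)] _ hb]
    congr 1
    funext l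
    fin_cases l
    · simp
    · simp [mul_div_cancel₀ _ hb]
  have h3 : ht k ![1, A / B] ≤ ht k z := by
    rw [← hg.smul k L ‹_› _ ![1, A / B] _ hB]
    refine hg.le k L ‹_› _ _ _ _ (Function.ne_iff.2 ⟨0, by simpa using hB⟩) fun l => ?_
    have m : ∀ a : σ → k, ∑ l, a l • z l ∈ Submodule.span k (range z) := fun a =>
      Submodule.sum_mem _ fun l _ => Submodule.smul_mem _ _ (Submodule.subset_span ⟨l, rfl⟩)
    fin_cases l
    · simpa using m b
    · simpa [mul_div_cancel₀ _ hB] using m a
  rw [← he, h2]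
  rcases const_or_transcendental (k := k) (A / B) with ⟨c, hc⟩ | ht
  · rw [hc, ← IsScalarTower.algebraMap_apply, IsScalarTower.algebraMap_apply k k' L', ht_const]
    exact hg.nn k L ‹_› _ _
  · refine le_trans ?_ h3
    rw [hg.deg k' L' ‹_› _ (tr h ht), hg.deg k L ‹_› _ ht]
    exact_mod_cast (fin h _ (IsFF.finiteDimensional ht)).2

end HtbH

open HtbH in
/-- row HTB -/
theorem htb_of (hW : WEX) (hS : SEMI) : HTB := by
  intro k k' L L' _ _ _ _ _ _ _ _ _ _ _ _ _ _ h hL
  refine ⟨ff h, fun σ _ z => ?_⟩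
  by_cases h0 : z = 0
  · have : up L' z = 0 := funext fun l => by simp [up, h0]
    rw [this, h0]
    simp [ht, HgH.mx_zero]
  obtain ⟨w, -⟩ := hW k k' ∅ finite_empty
  exact le_antisymm (le h z h0) (semi hS h w (fun l => ⟨_, red_mem h w (z l)⟩) z
    (fun l => red_up h w _) h0)

end Vale.Agent.P270L
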