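import Vale.Agent.P270L.T.Hg

/-!
# P270L, block T, row KLB: the klt condition does not depend on the ground field
-/

open Set Function
open Vale.Agent.P297
open Vale.Agent.P285N.Brep (jac Fr)

namespace Vale.Agent.P270L

namespace KlbH

variable {K K' : Type} [Field K] [Field K'] [Algebra K K'] {P : Place K} {P' : Place K'} {e : ℕ}

theorem det_mem {n : ℕ} {M : Matrix (Fin n) (Fin n) K} (h : ∀ i j, M i j ∈ P.ring) :
    M.det ∈ P.ring := by
  rw [Matrix.det_apply']
  exact sum_mem fun _ _ => mul_mem (intCast_mem _ _) (prod_mem fun _ _ => h _ _)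

theorem up_mem (h : ∀ f, P'.ord (algebraMap K K' f) = e * P.ord f) {f : K} (hf : f ∈ P.ring) :
    algebraMap K K' f ∈ P'.ring := by
  by_cases c : f = 0
  · simp [c]
  rw [← P'.ord_nonneg_iff (by simpa using c), h]
  exact mul_nonneg (Nat.cast_nonneg _) (P.ord_nonneg_of_mem hf)

theorem mx_up (h : ∀ f, P'.ord (algebraMap K K' f) = e * P.ord f) {σ : Type} [Fintype σ]
    {z : σ → K} (hz : z ≠ 0) : mx P' (up K' z) = e * mx P z := by
  obtain ⟨l, l0, e1, k⟩ := HgH.top P hz
  rw [HgH.mx_eq P' (l := l) fun m => ?_, e1, up, h, mul_neg]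
  have := (P'.mem_ring_iff _).1 (up_mem h ((P.mem_ring_iff (z m / z l)).2 (by
    rw [map_div₀]
    exact div_le_one_of_le₀ (k m) zero_le)))
  rwa [map_div₀, map_div₀, div_le_one₀ (zero_lt_iff.2 (by simpa using l0))] at this

theorem cf_up (h : ∀ f, P'.ord (algebraMap K K' f) = e * P.ord f) {ι : Type} [Fintype ι]
    {x : ι → K} (hx : x ≠ 0) {C : Cd K} (hC : C.s ≠ 0) :
    cf (up K' x) P' (C.up K') = e * cf x P C := by
  rw [cf, cf, mx_up h hx, mul_sub, ← mx_up h hC, mul_left_comm]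
  rfl

theorem der_ord {k : Type} [Field k] [Algebra k K] {D : Derivation k K K}
    (hD : ∀ f ∈ P.ring, D f ∈ P.ring) {ϖ f : K} (h0 : ϖ ≠ 0) (h1 : P.ord ϖ = 1) (f0 : f ≠ 0)
    (hf : P.ord f = (e + 1 : ℕ)) : (ϖ ^ e)⁻¹ * D f ∈ P.ring := by
  have m1 : ϖ ∈ P.ring := (P.ord_nonneg_iff h0).1 (by omega)
  have m2 : f / ϖ ^ (e + 1) ∈ P.ring := (P.ord_nonneg_iff (by simp [f0, h0])).1 (by
    rw [P.ord_div f0 (pow_ne_zero _ h0), P.ord_pow, hf, h1, mul_one, sub_self])
  obtain ⟨u, rfl⟩ : ∃ u, f = u * ϖ ^ (e + 1) := ⟨_, (div_mul_cancel₀ f (pow_ne_zero _ h0)).symm⟩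
  rw [mul_div_cancel_right₀ _ (pow_ne_zero _ h0)] at m2
  convert add_mem (mul_mem m2 (mul_mem (natCast_mem _ (e + 1)) (hD _ m1)))
    (mul_mem m1 (hD _ m2)) using 1
  rw [D.leibniz, D.leibniz_pow]
  simp only [smul_eq_mul, nsmul_eq_mul, Nat.add_sub_cancel]
  field_simp
  ring

end KlbH

open KlbH in
/-- row KLB -/
theorem klb_of (hD : DER) (hP : PRES) (hF : FRU) (hA : ABH) (hG : GAU) : KLB := by
  intro k k' K K' _ _ _ _ _ _ _ _ _ _ _ _ _ _ h ι _ _ x n y δ q C hx hf q0 hC
  have x0 : x ≠ 0 := ne_iff.2 ⟨Classical.arbitrary _, hx _⟩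
  have q1 : (0 : ℤ) < q := Nat.cast_pos.2 q0
  have jm : ∀ (D : Fin n → Derivation k K K) z, algebraMap K K' (jac D z) =
      (Matrix.of fun i j => algebraMap K K' (D i (z j))).det := fun D z =>
    (algebraMap K K').map_det _
  refine ⟨fun H P p D d j0 => ?_, fun H P' p D' d j0 => ?_⟩
  · obtain ⟨P', p1, p2, p3⟩ := hG k k' K K' h n P p
    replace p2 : ∀ f, P'.ord (algebraMap K K' f) = (1 : ℕ) * P.ord f := by simpa using p2
    obtain ⟨δ', -, d2⟩ := hF k k' K K' h n y δ hf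
    have e : ∀ j f, (∑ i, algebraMap K K' (D j (y i)) • δ' i) (algebraMap K K' f) =
        algebraMap K K' (D j f) := fun j f => by
      have := congrFun (map_sum Derivation.coeFnAddMonoidHom
        (fun i => algebraMap K K' (D j (y i)) • δ' i) Finset.univ) (algebraMap K K' f)
      rw [Finset.sum_apply] at this
      refine this.trans ?_
      rw [hD.un k K K n y δ hf (D j) f]
      simp [d2, mul_comm, Algebra.smul_def]
    have e' : jac (fun j => ∑ i, algebraMap K K' (D j (y i)) • δ' i) (up K' y) =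
        algebraMap K K' (jac D y) := by
      rw [jm]
      simp only [jac, up, e]
    have := H P' p1 _ (fun j => p3 _ fun f c => e j f ▸ up_mem p2 (d j f c))
      (by rw [e']; simpa using j0)
    rw [e'] at this
    simpa [cf_up p2 x0 hC, p2] using this
  rcases hA k k' K K' h n P' p with c | ⟨P, e, e0, p1, p2⟩
  · have o : ∀ {σ : Type} [Fintype σ] {z : σ → K}, z ≠ 0 → mx P' (up K' z) = 0 := fun {_ _ z} hz => by
      obtain ⟨l, l0, e, -⟩ := HgH.top P' (z := up K' z) fun c => hz (funext fun m => by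
        simpa [up] using congrFun c m)
      rw [e, neg_eq_zero]
      exact (P'.ord_eq_zero_iff l0).2 ⟨c _, map_inv₀ (algebraMap K K') (z l) ▸ c _⟩
    have := P'.ord_nonneg_of_mem (x := jac D' (up K' y)) (det_mem fun i j => d i _ (c _))
    rw [cf, o x0, show mx P' (C.up K').s = 0 from o hC]
    simpa using mul_pos q1 (show 0 < 1 + P'.ord (jac D' (up K' y)) by omega)
  obtain ⟨z, D, fz, z1, ⟨a, z2⟩, z3⟩ := hP k K n y δ hf P p1
  have ch : jac D' (up K' y) = jac D' (up K' z) * algebraMap K K' (jac D y) := by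
    rw [jm, jac, jac, ← Matrix.det_mul]
    congr 1
    ext i j
    simpa [Matrix.mul_apply, up, Algebra.smul_def, mul_comm] using
      hD.un k K K' n z D fz (((D' i).restrictScalars k).compAlgebraMap K) (y j)
  rw [ch] at j0 ⊢
  have j1 := left_ne_zero_of_mul j0
  have j2 := right_ne_zero_of_mul j0
  have h1 := H P p1 D z3 (by simpa using j2)
  obtain ⟨e, rfl⟩ := Nat.exists_eq_add_one.2 e0
  obtain ⟨ϖ, w0, w1⟩ := P'.exists_ord_eq_one
  have h2 : (ϖ ^ e)⁻¹ * jac D' (up K' z) ∈ P'.ring := by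
    have := Matrix.det_mul_row (Pi.mulSingle a (ϖ ^ e)⁻¹) (Matrix.of fun i j => D' i (up K' z j))
    rw [Finset.prod_pi_mulSingle', if_pos (Finset.mem_univ _)] at this
    refine this ▸ det_mem fun i j => ?_
    by_cases c : j = a
    · subst c
      simpa using der_ord (d i) w0 w1 (f := up K' z j) (fun c => by
        simp [show z j = 0 by simpa [up] using c] at z2) (by rw [up, p2, z2, mul_one])
    · simpa [c, up] using d i _ (up_mem p2 (z1 j))
  have h3 := P'.ord_nonneg_of_mem h2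
  rw [P'.ord_mul (by simp [w0]) j1, P'.ord_inv, P'.ord_pow, w1] at h3
  rw [cf_up p2 x0 hC, P'.ord_mul j1 j2, p2]
  push_cast
  nlinarith [mul_lt_mul_of_pos_left h1 (show (0 : ℤ) < e + 1 by omega), mul_nonneg q1.le h3]

end Vale.Agent.P270L
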