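import Vale.Agent.P270L.TDefs

/-!
# P270L, block T: row LDN
-/

open Set

noncomputable section

namespace Vale.Agent.P270L

namespace LdnH

variable {k k' K K' : Type} [Field k] [Field k'] [Field K] [Field K'] [Algebra k k'] [Algebra k K]
  [Algebra k K'] [Algebra k' K'] [Algebra K K'] [IsScalarTower k K K'] [IsScalarTower k k' K']

omit [Algebra k k'] [IsScalarTower k k' K'] [Algebra k K'] [IsScalarTower k K K'] in
theorem mem_ex {A : Subalgebra k K} {f : K} (h : f ∈ A) : algebraMap K K' f ∈ ex k' K K' A :=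
  Algebra.subset_adjoin ⟨f, h, rfl⟩

omit [Algebra k K] [Algebra k K'] [IsScalarTower k K K'] [IsScalarTower k k' K'] in
theorem retr : ∃ μ : k' →ₗ[k] k, μ 1 = 1 := by
  obtain ⟨g, hg⟩ := (Algebra.linearMap k k').exists_leftInverse_of_injective
    (LinearMap.ker_eq_bot.2 (algebraMap k k').injective)
  exact ⟨g, by simpa using LinearMap.congr_fun hg 1⟩

theorem pi_mul (π : K' →ₗ[K] K) (f : K) (a : K') : π (a * algebraMap K K' f) = π a * f := by
  rw [mul_comm, ← Algebra.smul_def, map_smul, smul_eq_mul, mul_comm]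

variable [IsAlgClosed k] [IsAlgClosed k'] [CharZero k]

/-- a retraction which maps the charts to the charts -/
theorem ret (hL : LIN) (h : BC k k' K K') : ∃ π : K' →ₗ[K] K, π 1 = 1 ∧
    ∀ (ι : Type) (x : ι → K) i, ∀ f ∈ ch k' (up K' x) i, π f ∈ ch k x i := by
  obtain ⟨μ, hμ⟩ := retr (k := k) (k' := k')
  obtain ⟨π, hπ⟩ := hL.proj k k' K K' h μ
  refine ⟨π, by simpa [hμ] using hπ 1, fun ι x i f hf => ?_⟩
  rw [hL.ch k k' K K' h] at hf
  exact hL.mem k k' K K' h μ π hπ _ f hf

theorem up_mem (hL : LIN) (h : BC k k' K K') {ι : Type} {x : ι → K} {i : ι} {f : K}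
    (hf : f ∈ ch k x i) : algebraMap K K' f ∈ ch k' (up K' x) i := by
  rw [hL.ch k k' K K' h]
  exact mem_ex hf

end LdnH

open LdnH

theorem ldn_of (hL : LIN) : LDN := by
  refine ⟨?_, ?_, ?_⟩
  · intro k k' K K' _ _ _ _ _ _ _ _ _ _ _ _ _ _ h ι x hm
    refine ⟨fun i hi => hm.ne i (by simp [up, hi]), fun i f => ?_, fun i f hf => ?_⟩
    · obtain ⟨b, hb, h0, hf⟩ := hm.frac i (algebraMap K K' f)
      rw [hL.ch k k' K K' h] at hb hf
      obtain ⟨μ, π, hπ, h1⟩ := hL.sep k k' K K' h b
        (Algebra.adjoin_mono (image_mono (subset_univ _)) hb) h0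
      refine ⟨π b, hL.mem k k' K K' h μ π hπ _ b hb, h1, ?_⟩
      rw [← pi_mul]
      exact hL.mem k k' K K' h μ π hπ _ _ hf
    · obtain ⟨π, h1, hπ⟩ := ret hL h
      let g : ch k x i →+* ch k' (up K' x) i :=
        ((algebraMap K K').comp (ch k x i).val.toRingHom).codRestrict (ch k' (up K' x) i)
          fun a => up_mem hL h a.2
      have h2 := hπ ι x i _ (hm.normal i _ (hf.map_of_comp_eq g (algebraMap K K') rfl))
      rwa [← one_mul (algebraMap K K' f), pi_mul, h1, one_mul] at h2
  · intro k k' K K' _ _ _ _ _ _ _ _ _ _ _ _ _ _ h ι σ _ x s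
    constructor
    · intro hf i
      obtain ⟨π, h1, hπ⟩ := ret hL h
      obtain ⟨t, ht, hs⟩ := hf i
      refine ⟨fun j => π (t j), fun j l => ?_, ?_⟩
      · rw [← pi_mul]
        exact hπ ι x i _ (ht j l)
      · rw [← h1, ← hs, map_sum]
        exact Finset.sum_congr rfl fun j _ => (pi_mul π _ _).symm
    · intro hf i
      obtain ⟨t, ht, hs⟩ := hf i
      refine ⟨up K' t, fun j l => ?_, ?_⟩
      · simpa [up] using up_mem hL h (ht j l)
      · simpa [up] using congrArg (algebraMap K K') hs
  · intro k k' K K' _ _ _ _ _ _ _ _ _ _ _ _ _ _ h ι σ x i s f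
    constructor
    · intro hf
      obtain ⟨π, h1, hπ⟩ := ret hL h
      have key : ∀ g ∈ Submodule.span (ch k' (up K' x) i) (range (up K' s)),
          ∀ a ∈ ch k' (up K' x) i, π (a * g) ∈ Submodule.span (ch k x i) (range s) := by
        intro g hg
        induction hg using Submodule.span_induction with
        | mem g hg =>
          obtain ⟨l, rfl⟩ := hg
          intro a ha
          rw [up, pi_mul]
          exact Submodule.smul_mem _ (⟨_, hπ ι x i a ha⟩ : ch k x i)
            (Submodule.subset_span ⟨l, rfl⟩)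
        | zero => intro a _; rw [mul_zero, map_zero]; exact zero_mem _
        | add g g' _ _ hg hg' =>
          intro a ha
          rw [mul_add, map_add]
          exact add_mem (hg a ha) (hg' a ha)
        | smul b g _ hg =>
          intro a ha
          rw [Subalgebra.smul_def, smul_eq_mul, ← mul_assoc]
          exact hg _ (mul_mem ha b.2)
      have h2 := key _ hf 1 (one_mem _)
      rwa [pi_mul, h1, one_mul] at h2
    · intro hf
      unfold Sp at hf ⊢
      induction hf using Submodule.span_induction with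
      | mem g hg =>
        obtain ⟨l, rfl⟩ := hg
        exact Submodule.subset_span ⟨l, rfl⟩
      | zero => rw [map_zero]; exact zero_mem _
      | add g g' _ _ hg hg' => rw [map_add]; exact add_mem hg hg'
      | smul b g _ hg =>
        rw [Subalgebra.smul_def, smul_eq_mul, map_mul]
        exact Submodule.smul_mem _ (⟨_, up_mem hL h b.2⟩ : ch k' (up K' x) i) hg

end Vale.Agent.P270L
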