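import Vale.Agent.P270L.T.Redk
import Mathlib.RingTheory.Smooth.IntegralClosure

/-!
# P270L, block T: row MDU
-/

open Set Polynomial IntermediateField
open scoped IntermediateField.algebraAdjoinAdjoin

noncomputable section

namespace Vale.Agent.P270L

lemma der_mem {R F L : Type} [CommRing R] [IsDomain R] [IsIntegrallyClosed R] [Field F] [Field L]
    [Algebra R F] [IsFractionRing R F] [Algebra F L] [Algebra R L] [IsScalarTower R F L] {θ z : L}
    (hθ : IsIntegral R θ) (ht : Algebra.adjoin F {θ} = ⊤) (hz : IsIntegral R z) {P : R[X]}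
    (hP : aeval θ P = 0) : aeval θ (derivative P) * z ∈ Algebra.adjoin R {θ} := by
  have e := minpoly.isIntegrallyClosed_eq_field_fractions' F hθ
  obtain ⟨g, hg, hc⟩ := exists_derivative_mul_eq_and_isIntegral_coeff
    (φ := (aeval θ : F[X] →ₐ[F] L).restrictScalars R) (f := minpoly F θ)
    (by rw [Algebra.adjoin_singleton_eq_range_aeval, AlgHom.range_eq_top] at ht; exact ht)
    (minpoly.monic hθ.tower_top) (fun i => by rw [e, coeff_map]; exact isIntegral_algebraMap)
    (minpoly.ker_aeval_eq_span_minpoly F θ) hz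
  obtain ⟨g, rfl⟩ : g ∈ lifts (algebraMap R F) :=
    (lifts_iff_coeff_lifts g).2 fun i => IsIntegrallyClosed.isIntegral_iff.1 (hc i)
  have : FaithfulSMul R L := .trans R F L
  obtain ⟨H, rfl⟩ := minpoly.isIntegrallyClosed_dvd hθ hP
  simp only [e, derivative_map, AlgHom.coe_restrictScalars', coe_mapRingHom,
    aeval_map_algebraMap] at hg
  rw [derivative_mul, map_add, map_mul, map_mul, minpoly.aeval, zero_mul, add_zero, mul_right_comm,
    hg, ← map_mul]
  exact aeval_mem_adjoin_singleton R θ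

lemma int_cl {R L : Type} [CommRing R] [CommRing L] [Algebra R L] {z : L}
    (h : IsIntegral (integralClosure R L) z) : IsIntegral R z := isIntegral_trans z h

lemma ic_adjoin {k K ι : Type} [Field k] [Field K] [Algebra k K] {y : ι → K}
    (hy : AlgebraicIndependent k y) : IsIntegrallyClosed (Algebra.adjoin k (range y)) :=
  .of_equiv hy.aevalEquiv.toRingEquiv

section

variable {k k' K K' : Type} [Field k] [Field k'] [Field K] [Field K'] [Algebra k k'] [Algebra k K]
  [Algebra k K'] [Algebra k' K'] [Algebra K K'] [IsScalarTower k K K'] [IsScalarTower k k' K']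

omit [Algebra k k'] [Algebra k K] [Algebra k K'] [IsScalarTower k K K'] [IsScalarTower k k' K'] in
lemma up_ex {A : Set K} {a : K} (ha : a ∈ A) : algebraMap K K' a ∈ ex k' K K' A :=
  Algebra.subset_adjoin ⟨a, ha, rfl⟩

omit [Algebra k k'] [Algebra k K'] [IsScalarTower k K K'] [IsScalarTower k k' K'] in
lemma ex_clear {A : Subalgebra k K} (hA : ∀ f, ∃ b ∈ A, b ≠ 0 ∧ b * f ∈ A) {u : K'}
    (hu : u ∈ ex k' K K' univ) : ∃ b ∈ A, b ≠ 0 ∧ algebraMap K K' b * u ∈ ex k' K K' A := by
  have h := mem_ex_span (A := ⊤) hu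
  clear hu
  induction h using Submodule.span_induction with
  | mem x hx =>
    obtain ⟨a, -, rfl⟩ := hx
    obtain ⟨b, hb, b0, h⟩ := hA a
    exact ⟨b, hb, b0, map_mul (algebraMap K K') b a ▸ up_ex h⟩
  | zero => exact ⟨1, one_mem _, one_ne_zero, by simp⟩
  | add x y _ _ hx hy =>
    obtain ⟨b, hb, b0, h⟩ := hx
    obtain ⟨c, hc, c0, h'⟩ := hy
    refine ⟨b * c, mul_mem hb hc, mul_ne_zero b0 c0, ?_⟩
    convert add_mem (mul_mem (up_ex hc) h) (mul_mem (up_ex hb) h') using 1
    rw [map_mul]; ring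
  | smul c x _ hx =>
    obtain ⟨b, hb, b0, h⟩ := hx
    exact ⟨b, hb, b0, mul_smul_comm c _ x ▸ Subalgebra.smul_mem _ h c⟩

omit [Algebra k k'] [Algebra k K'] [IsScalarTower k K K'] [IsScalarTower k k' K'] in
lemma int_clear {A : Subalgebra k K} (hA : ∀ f, ∃ b ∈ A, b ≠ 0 ∧ b * f ∈ A) {z : K'}
    (hz : IsIntegral (ex k' K K' univ) z) :
    ∃ b : K, b ≠ 0 ∧ IsIntegral (ex k' K K' A) (algebraMap K K' b * z) := by
  have hle : ex k' K K' A ≤ ex k' K K' univ := Algebra.adjoin_mono (image_mono (subset_univ _))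
  let := (Subalgebra.inclusion hle).toAlgebra
  have : IsScalarTower (ex k' K K' A) (ex k' K K' univ) K' := .of_algebraMap_eq fun _ => rfl
  let M : Submonoid (ex k' K K' A) :=
    ((nonZeroDivisors K).map (algebraMap K K')).comap (ex k' K K' A).val
  have : IsLocalization M (ex k' K K' univ) := (isLocalization_iff _ _).2 ⟨?_, ?_, ?_⟩
  · obtain ⟨⟨m, a, ha, e⟩, hm⟩ := hz.exists_multiple_integral_of_isLocalization M
    exact ⟨a, nonZeroDivisors.ne_zero ha, e ▸ hm⟩
  · rintro ⟨m, a, ha, e⟩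
    refine .of_mul_eq_one ⟨_, up_ex (mem_univ a⁻¹)⟩ (Subtype.ext ?_)
    change (ex k' K K' A).val m * _ = 1
    rw [← e, ← map_mul, mul_inv_cancel₀ (nonZeroDivisors.ne_zero ha), map_one]
  · intro u
    obtain ⟨b, hb, b0, h⟩ := ex_clear hA u.2
    exact ⟨⟨⟨_, h⟩, ⟨_, up_ex hb⟩, b, mem_nonZeroDivisors_of_ne_zero b0, rfl⟩,
      Subtype.ext (mul_comm _ _)⟩
  · intro a b e
    exact ⟨1, congrArg _ (Subalgebra.inclusion_injective hle e)⟩

/-- the ring `K k'` is normal -/
lemma BC.normal (h : BC k k' K K') [CharZero k] {ι : Type} {y : ι → K}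
    (hy : AlgebraicIndependent k y) [FiniteDimensional (adjoin k (range y)) K] {z : K'}
    (hz : IsIntegral (ex k' K K' univ) z) : z ∈ ex k' K K' univ := by
  have := ic_adjoin hy
  have := ic_adjoin (h.ai hy)
  set A := Algebra.adjoin k (range y)
  set R := Algebra.adjoin k' (range (up K' y))
  set F := adjoin k (range y)
  set F' := adjoin k' (range (up K' y))
  have hF : ∀ c ∈ F, algebraMap K K' c ∈ F' := fun c hc => by
    have : F ≤ (F'.restrictScalars k).comap (IsScalarTower.toAlgHom k K K') := by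
      rw [adjoin_le_iff]
      rintro _ ⟨i, rfl⟩
      exact subset_adjoin k' _ ⟨i, rfl⟩
    exact this hc
  have hA : ∀ c ∈ A, algebraMap K K' c ∈ R := fun c hc => by
    have : A ≤ (R.restrictScalars k).comap (IsScalarTower.toAlgHom k K K') := by
      rw [Algebra.adjoin_le_iff]
      rintro _ ⟨i, rfl⟩
      exact Algebra.subset_adjoin ⟨i, rfl⟩
    exact this hc
  let φ : A →+* R := ((algebraMap K K').comp A.subtype).codRestrict R.toSubring fun c => hA c c.2
  have hi : ∀ a, IsIntegral A a → IsIntegral R (algebraMap K K' a) := fun a ha =>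
    ha.map_of_comp_eq φ (algebraMap K K') rfl
  have : Algebra.IsAlgebraic A K := (IsFractionRing.comap_isAlgebraic_iff (K := F)).2 inferInstance
  have hm : ∀ f : K, ∃ b : A, b ≠ 0 ∧ IsIntegral A (b * f) := fun f =>
    (Algebra.IsAlgebraic.isAlgebraic f).exists_integral_multiple
  obtain ⟨α, hα⟩ := Field.exists_primitive_element F K
  obtain ⟨b, b0, hθ⟩ := hm α
  set θ := b * α
  have ht : Algebra.adjoin F {θ} = ⊤ := by
    rw [eq_top_iff, ← top_toSubalgebra, ← hα,
      adjoin_simple_toSubalgebra_of_isAlgebraic (Algebra.IsAlgebraic.isAlgebraic α),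
      Algebra.adjoin_le_iff, singleton_subset_iff]
    have := (Algebra.adjoin F {θ}).smul_mem (Algebra.subset_adjoin rfl) (algebraMap A F b)⁻¹
    rwa [show (algebraMap A F b)⁻¹ • θ = α from
      inv_mul_cancel_left₀ (fun e => b0 (Subtype.ext e)) α] at this
  have ht' : Algebra.adjoin F' {algebraMap K K' θ} = ⊤ := by
    have h1 : ∀ a, algebraMap K K' a ∈ Algebra.adjoin F' {algebraMap K K' θ} := fun a => by
      have ha : a ∈ Algebra.adjoin F {θ} := ht ▸ trivial
      induction ha using Algebra.adjoin_induction with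
      | mem x hx => exact Algebra.subset_adjoin (congrArg _ hx)
      | algebraMap c => exact Subalgebra.algebraMap_mem _ (⟨_, hF c c.2⟩ : F')
      | add x y _ _ hx hy => rw [map_add]; exact add_mem hx hy
      | mul x y _ _ hx hy => rw [map_mul _ x]; exact mul_mem hx hy
    rw [← Algebra.toSubmodule_eq_top, eq_top_iff, ← h.span y _ (Module.finBasis F K).span_eq,
      Submodule.span_le]
    rintro _ ⟨j, rfl⟩
    exact h1 _
  obtain ⟨g, g0, hg⟩ := int_clear (A := (integralClosure A K).restrictScalars k) (fun f => by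
    obtain ⟨b, b0, h⟩ := hm f
    exact ⟨b, (integralClosure A K).algebraMap_mem b, fun e => b0 (Subtype.ext e), h⟩) hz
  have hle : ex k' K K' ((integralClosure A K).restrictScalars k) ≤
      (integralClosure R K').restrictScalars k' :=
    Algebra.adjoin_le (by rintro _ ⟨a, ha, rfl⟩; exact hi a ha)
  have hg' : IsIntegral R (algebraMap K K' g * z) := int_cl
    (hg.map_of_comp_eq (Subalgebra.inclusion hle).toRingHom (RingHom.id _) rfl)
  have ev : ∀ p : A[X], aeval (algebraMap K K' θ) (p.map φ) = algebraMap K K' (aeval θ p) :=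
    fun p => by rw [aeval_def, aeval_def, eval₂_map, hom_eval₂]; rfl
  have := der_mem (hi θ hθ) ht' hg' (P := (minpoly A θ).map φ) (by rw [ev, minpoly.aeval, map_zero])
  rw [derivative_map, ev] at this
  have d0 : aeval θ (derivative (minpoly A θ)) ≠ 0 := by
    have := (Algebra.IsSeparable.isSeparable F θ).aeval_derivative_ne_zero (minpoly.aeval F θ)
    rwa [minpoly.isIntegrallyClosed_eq_field_fractions' F hθ, derivative_map,
      aeval_map_algebraMap] at this
  have h2 : Algebra.adjoin k' (range (up K' y) ∪ {algebraMap K K' θ}) ≤ ex k' K K' univ :=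
    Algebra.adjoin_le (by rintro _ (⟨i, rfl⟩ | rfl) <;> exact up_ex trivial)
  rw [Algebra.adjoin_union_eq_adjoin_adjoin] at h2
  have := mul_mem (up_ex (mem_univ (aeval θ (derivative (minpoly A θ)) * g)⁻¹)) (h2 this)
  rwa [← mul_assoc, ← mul_assoc, ← map_mul, ← map_mul, mul_assoc,
    inv_mul_cancel₀ (mul_ne_zero d0 g0), map_one, one_mul] at this

/-- the ring `A k'` is integrally closed in `K k'` -/
lemma BC.closed (h : BC k k' K K') [IsAlgClosed k] [IsAlgClosed k'] [CharZero k]
    {A : Subalgebra k K} (hA : ∀ f : K, IsIntegral A f → f ∈ A) {z : K'}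
    (h1 : z ∈ ex k' K K' univ) (hz : IsIntegral (ex k' K K' A) z) : z ∈ ex k' K K' A := by
  obtain ⟨s, hs, hsp, hli⟩ := exists_linearIndependent k (A : Set K)
  let β := Module.Basis.extend (hli : LinearIndepOn k id s)
  obtain ⟨c, rfl⟩ := ex_basis β h1
  by_contra hn
  obtain ⟨i, hi, his⟩ : ∃ i ∈ c.support, i.1 ∉ s := by
    by_contra! hc
    exact hn (sum_mem fun i hi => Subalgebra.smul_mem _ 
      (up_ex (hs (Module.Basis.extend_apply_self hli i ▸ hc i hi))) _)
  obtain ⟨p, hp, hpz⟩ := hz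
  obtain ⟨w, O, r, -, hw, r1, r2, hg⟩ := redk k k' K K' h ∅ (insert (c i)⁻¹ (c '' c.support))
    p.support (fun _ => A) (fun n => p.coeff n) finite_empty
    ((c.support.finite_toSet.image c).insert _) fun n => (p.coeff n).2
  choose m1 r1 using r1
  choose m2 r2 using r2
  have hle : Algebra.adjoin k (algebraMap K K' '' A ∪ algebraMap k' K' '' w.W) ≤
      (A.comap r).map O.val := by
    rw [Algebra.adjoin_le_iff]
    rintro _ (⟨a, ha, rfl⟩ | ⟨a, ha, rfl⟩)
    · exact ⟨⟨_, m1 a⟩, show r _ ∈ A from (r1 a).symm ▸ ha, rfl⟩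
    · exact ⟨⟨_, m2 ⟨a, ha⟩⟩, show r _ ∈ A from (r2 _).symm ▸ A.algebraMap_mem _, rfl⟩
  let d : c.support → w.W := fun j => ⟨c j, hw (.inr ⟨j, j.2, rfl⟩)⟩
  let b : O := ∑ j : c.support, ⟨_, m2 (d j)⟩ * ⟨_, m1 (β j)⟩
  have e : c.sum (fun i a => a • algebraMap K K' (β i)) = b := by
    simp [b, d, Finsupp.sum, Algebra.smul_def, ← c.support.sum_coe_sort]
  have hb : IsIntegral (A.comap r) b := by
    let ψ := O.val.comp (A.comap r).val
    have hl : p.map (algebraMap _ K') ∈ lifts ψ.toRingHom := (lifts_iff_coeff_lifts _).2 fun n => by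
      rw [coeff_map]
      by_cases hn : n ∈ p.support
      · obtain ⟨a, ha, e⟩ := hle (hg ⟨n, hn⟩)
        exact ⟨⟨a, ha⟩, e⟩
      · exact ⟨0, by simp [notMem_support_iff.1 hn]⟩
    obtain ⟨q, hq, -, hm⟩ := lifts_and_degree_eq_and_monic hl (hp.map _)
    refine ⟨q, hm, Subtype.ext ?_⟩
    rw [← eval_map, ← hq, eval_map, e] at hpz
    exact (hom_eval₂ q _ O.val.toRingHom b).trans hpz
  have := hA _ (hb.map_of_comp_eq ((r.comp (A.comap r).val).codRestrict A fun a => a.2).toRingHom
    r.toRingHom rfl)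
  have hr : r b ∈ Submodule.span k (β '' {j | j.1 ∈ s}) := by
    refine Submodule.span_mono (fun a ha => ?_) (hsp.ge (Submodule.subset_span this))
    exact ⟨⟨a, LinearIndepOn.subset_extend _ _ ha⟩, ha, Module.Basis.extend_apply_self _ _⟩
  have h0 := Finsupp.notMem_support_iff.1 fun hm => his (β.mem_span_image.1 hr hm)
  have e2 : d ⟨i, hi⟩ * ⟨_, hw (mem_insert ..)⟩ = 1 :=
    Subtype.ext (mul_inv_cancel₀ (Finsupp.mem_support_iff.1 hi))
  have : w.ρ (d ⟨i, hi⟩) = 0 := by
    classical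
    simp only [b, map_sum, map_mul, r1, r2, ← Algebra.smul_def, map_smul, β.repr_self,
      Finsupp.finsetSum_apply, Finsupp.smul_apply, Finsupp.single_apply] at h0
    rwa [Finset.sum_eq_single ⟨i, hi⟩ (fun j _ hj => by simp [Subtype.ext_iff.not.1 hj])
      (by simp), if_pos rfl, smul_eq_mul, mul_one] at h0
  simpa [this] using congrArg w.ρ e2

end

theorem mdu : MDU := by
  intro k k' K K' _ _ _ _ _ _ _ _ _ _ _ _ _ _ h n y hy _ ι x hx
  refine ⟨fun i => (_root_.map_ne_zero _).2 (hx.ne i), fun i f => ?_, fun i f hf => ?_⟩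
  · obtain ⟨b, hb, b0, hf⟩ := h.gen f
    obtain ⟨c, hc, c0, h1⟩ := ex_clear (hx.frac i) hb
    obtain ⟨d, hd, d0, h2⟩ := ex_clear (hx.frac i) hf
    rw [ch_up (k := k)]
    refine ⟨_, mul_mem (up_ex hd) h1, mul_ne_zero ((_root_.map_ne_zero _).2 d0)
      (mul_ne_zero ((_root_.map_ne_zero _).2 c0) b0), ?_⟩
    convert mul_mem (up_ex hc) h2 using 1
    ring
  · rw [ch_up (k := k)] at hf ⊢
    exact h.closed (hx.normal i) (h.normal hy (hf.map_of_comp_eq (Subalgebra.inclusion
      (Algebra.adjoin_mono (image_mono (subset_univ _)))).toRingHom (RingHom.id _) rfl)) hf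

end Vale.Agent.P270L
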