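import Vale.Agent.P270L.TDefs
import Mathlib.RingTheory.Valuation.LocalSubring
import Mathlib.RingTheory.Jacobson.Ring

/-!
# P270L, block T: row WEX
-/

open Set

noncomputable section

namespace Vale.Agent.P270L

/-- a field with no proper valuation ring over a finitely generated algebra is algebraic -/
lemma int_of_val {k κ : Type} [Field k] [Field κ] [Algebra k κ] (S : Set κ) (hS : S.Finite)
    (h : ∀ U : Subalgebra k κ, (∀ c, c ∈ U ∨ c⁻¹ ∈ U) → S ⊆ U → ∀ c, c ∈ U) :
    Algebra.IsIntegral k κ := by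
  let A := Algebra.adjoin k S
  have : Algebra.IsIntegral A κ := ⟨fun x => by
    by_contra hx
    have : IsIntegrallyClosedIn (integralClosure A κ).toSubring κ :=
      inferInstanceAs (IsIntegrallyClosedIn (integralClosure A κ) κ)
    obtain ⟨V, hV, hxV⟩ := Subring.exists_le_valuationSubring_of_isIntegrallyClosedIn
      (R := (integralClosure A κ).toSubring) hx
    have hA : ∀ a ∈ A, a ∈ V := fun a ha => hV ((integralClosure A κ).algebraMap_mem ⟨a, ha⟩)
    exact hxV (h { V.toSubring with algebraMap_mem' := fun a => hA _ (A.algebraMap_mem a) }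
      V.mem_or_inv_mem (fun s hs => hA s (Algebra.subset_adjoin hs)) x)⟩
  have hf : IsField A := isField_of_isIntegral_of_isField (S := κ) Subtype.val_injective
    (Field.toIsField κ)
  have : Algebra.FiniteType k A := Algebra.FiniteType.adjoin_of_finite hS
  have : Module.Finite k A := by
    let := hf.toField
    exact finite_of_finite_type_of_isJacobsonRing k A
  exact Algebra.IsIntegral.trans A

theorem wex : WEX := by
  intro k k' _ _ _ _ S hS
  obtain ⟨W, -, ⟨tot, hSW⟩, hm⟩ := zorn_le_nonempty₀ (α := (Subalgebra k k')ᵒᵈ)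
    {W : Subalgebra k k' | (∀ c, c ∈ W ∨ c⁻¹ ∈ W) ∧ S ⊆ W} (fun C hC hc V hV => by
      refine ⟨(sInf C : Subalgebra k k'), ⟨fun c => ?_, fun s hs => ?_⟩,
        fun U hU => sInf_le (α := Subalgebra k k') hU⟩
      · rw [Algebra.mem_sInf (S := C), Algebra.mem_sInf (S := C)]
        by_contra hn
        push Not at hn
        obtain ⟨⟨U, hU, h1⟩, U', hU', h2⟩ := hn
        rcases hc.total hU hU' with h | h
        · exact ((hC hU').1 c).elim (fun h' => h1 (h h')) h2
        · exact ((hC hU).1 c).elim h1 fun h' => h2 (h h')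
      · exact Algebra.mem_sInf.2 fun U hU => (hC hU).2 hs) (⊤ : Subalgebra k k')
      ⟨fun _ => .inl trivial, fun _ _ => trivial⟩
  change Subalgebra k k' at W
  have : IsLocalRing W := inferInstanceAs (IsLocalRing (⟨W.toSubring, tot⟩ : ValuationSubring k'))
  let κ := IsLocalRing.ResidueField W
  let r := IsScalarTower.toAlgHom k W κ
  have : Algebra.IsIntegral k κ := int_of_val (r '' (W.val ⁻¹' S))
    ((hS.preimage Subtype.val_injective.injOn).image _) fun U hU hSU c => by
      have hle : (U.comap r).map W.val ≤ W := by rintro _ ⟨a, -, rfl⟩; exact a.2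
      have := hm (y := (U.comap r).map W.val) ⟨fun c => ?_, fun s hs =>
        ⟨⟨s, hSW hs⟩, hSU ⟨_, hs, rfl⟩, rfl⟩⟩ hle
      · obtain ⟨a, rfl⟩ := IsLocalRing.residue_surjective c
        obtain ⟨b, hb, e⟩ := this a.2
        obtain rfl : b = a := Subtype.ext e
        exact hb
      · have key : ∀ c (h : c ∈ W), c⁻¹ ∉ W → c ∈ (U.comap r).map W.val := fun c h hn => by
          refine ⟨⟨c, h⟩, ?_, rfl⟩
          have : r ⟨c, h⟩ = 0 := (IsLocalRing.residue_eq_zero_iff _).2 fun hu => hn <| by
            obtain ⟨b, hb⟩ := hu.exists_right_inv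
            rw [inv_eq_of_mul_eq_one_right (congrArg Subtype.val hb)]
            exact b.2
          exact show r _ ∈ U from this ▸ U.zero_mem
        by_cases h1 : c ∈ W
        · by_cases h2 : c⁻¹ ∈ W
          · rcases eq_or_ne c 0 with rfl | c0
            · exact .inl (zero_mem _)
            have : r ⟨c⁻¹, h2⟩ = (r ⟨c, h1⟩)⁻¹ := eq_inv_of_mul_eq_one_left <| by
              rw [← map_mul, ← map_one r]
              exact congrArg r (Subtype.ext (inv_mul_cancel₀ c0))
            exact (hU (r ⟨c, h1⟩)).imp (fun h => ⟨⟨c, h1⟩, h, rfl⟩)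
              fun h => ⟨⟨c⁻¹, h2⟩, show r _ ∈ U from this ▸ h, rfl⟩
          · exact .inl (key c h1 h2)
        · exact .inr (key _ ((tot c).resolve_left h1) (by rwa [inv_inv]))
  let e := AlgEquiv.ofBijective (Algebra.ofId k κ) IsAlgClosed.algebraMap_bijective_of_isIntegral
  exact ⟨⟨W, tot, (e.symm : κ →ₐ[k] k).comp r⟩, hSW⟩

end Vale.Agent.P270L
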