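import Vale.Agent.P270L.T.Lin
import Vale.Agent.P270L.T.Wex

/-!
# P270L, block T: row REDK
-/

open Set

noncomputable section

namespace Vale.Agent.P270L

/-- a homomorphism to a field extends to the localisation at its kernel -/
lemma loc_ext {k K K' : Type} [Field k] [Field K] [Field K'] [Algebra k K] [Algebra k K']
    (B : Subalgebra k K') (h : B →ₐ[k] K) : ∃ (O : Subalgebra k K') (red : O →ₐ[k] K),
      (∀ b : B, ∃ hb, red ⟨b, hb⟩ = h b) ∧ ∀ b : B, h b ≠ 0 → (b : K')⁻¹ ∈ O := by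
  let M : Submonoid B := (nonZeroDivisors K).comap h
  have h1 : ∀ y : M, IsUnit (h y) := fun y => (nonZeroDivisors.ne_zero y.2).isUnit
  have h2 : ∀ y : M, IsUnit (B.val y) := fun y => Ne.isUnit fun e =>
    (h1 y).ne_zero (by rw [show (y : B) = 0 from Subtype.ext e, map_zero])
  let φ : Localization M →ₐ[k] K' := IsLocalization.liftAlgHom h2
  let ψ : Localization M →ₐ[k] K := IsLocalization.liftAlgHom h1
  have e1 : ∀ b : B, φ (algebraMap B _ b) = b := fun b => IsLocalization.lift_eq h2 b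
  have hφ : Function.Injective φ := (IsLocalization.lift_injective_iff h2).2 fun x y =>
    ⟨fun e => (e1 x).symm.trans (e ▸ e1 y), fun e => congrArg _ (Subtype.ext e)⟩
  let e := AlgEquiv.ofInjective φ hφ
  refine ⟨φ.range, ψ.comp (e.symm : φ.range →ₐ[k] _), fun b => ⟨⟨_, e1 b⟩, ?_⟩, fun b hb => ?_⟩
  · have : e.symm ⟨b, _, e1 b⟩ = algebraMap B _ b := e.symm_apply_eq.2 (Subtype.ext (e1 b).symm)
    exact (congrArg ψ this).trans (IsLocalization.lift_eq h1 b)
  · obtain ⟨c, hc⟩ := (IsLocalization.map_units (Localization M)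
      (⟨b, mem_nonZeroDivisors_of_ne_zero hb⟩ : M)).exists_right_inv
    refine ⟨c, eq_inv_of_mul_eq_one_right ?_⟩
    rw [← e1, ← map_one φ, ← hc, map_mul]
    rfl

section

variable {k k' K K' : Type} [Field k] [Field k'] [Field K] [Field K'] [Algebra k k'] [Algebra k K]
  [Algebra k K'] [Algebra k' K'] [Algebra K K'] [IsScalarTower k K K'] [IsScalarTower k k' K']

omit [IsScalarTower k K K'] [IsScalarTower k k' K'] in
/-- an element of `ex A` involves finitely many constants -/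
lemma ex_fin {A : Subalgebra k K} {f : K'} (hf : f ∈ ex k' K K' A) : ∃ T : Set k', T.Finite ∧
    ∀ R : Subalgebra k k', T ⊆ R →
      f ∈ Algebra.adjoin k (algebraMap K K' '' A ∪ algebraMap k' K' '' R) := by
  have h := mem_ex_span (A := A.toSubmonoid) hf
  clear hf
  induction h using Submodule.span_induction with
  | mem x hx => exact ⟨∅, finite_empty, fun R _ => Algebra.subset_adjoin (.inl hx)⟩
  | zero => exact ⟨∅, finite_empty, fun R _ => zero_mem _⟩
  | add x y _ _ hx hy =>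
    obtain ⟨T, hT, h⟩ := hx
    obtain ⟨T', hT', h'⟩ := hy
    exact ⟨T ∪ T', hT.union hT', fun R hR => add_mem (h R (subset_union_left.trans hR))
      (h' R (subset_union_right.trans hR))⟩
  | smul c x _ hx =>
    obtain ⟨T, hT, h⟩ := hx
    refine ⟨insert c T, hT.insert c, fun R hR => ?_⟩
    rw [Algebra.smul_def]
    exact mul_mem (Algebra.subset_adjoin (.inr ⟨c, hR (mem_insert ..), rfl⟩))
      (h R ((subset_insert ..).trans hR))

/-- coordinates in a basis of `K` -/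
lemma ex_basis {ι : Type} (β : Module.Basis ι k K) {b : K'} (hb : b ∈ ex k' K K' univ) :
    ∃ c : ι →₀ k', c.sum (fun i a => a • algebraMap K K' (β i)) = b := by
  refine Finsupp.mem_span_range_iff_exists_finsupp.1
    (Submodule.span_le.2 ?_ (mem_ex_span (A := ⊤) hb))
  rintro _ ⟨a, -, rfl⟩
  have := Submodule.mem_map_of_mem (f := (IsScalarTower.toAlgHom k K K').toLinearMap)
    (β.mem_span a)
  rw [Submodule.map_span, ← range_comp] at this
  exact Submodule.span_subset_span k k' _ this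

/-- a non-zero element of `K k'` has a non-zero reduction -/
lemma ex_ne {b : K'} (hb : b ∈ ex k' K K' univ) (h0 : b ≠ 0) : ∃ T : Set k', T.Finite ∧
    ∀ (R : Subalgebra k k') (ρ : R →ₐ[k] k), T ⊆ R → ∀ (B : Subalgebra k K') (h : B →ₐ[k] K),
      (∀ f, ∃ hf, h ⟨algebraMap K K' f, hf⟩ = f) →
      (∀ c : R, ∃ hc, h ⟨algebraMap k' K' c, hc⟩ = algebraMap k K (ρ c)) →
        ∃ hb : b ∈ B, h ⟨b, hb⟩ ≠ 0 := by
  let β := Module.Basis.ofVectorSpace k K
  obtain ⟨c, rfl⟩ := ex_basis β hb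
  obtain ⟨i, hi⟩ : c.support.Nonempty := Finsupp.support_nonempty_iff.2 fun e => h0 (by simp [e])
  refine ⟨insert (c i)⁻¹ (c '' c.support), (c.support.finite_toSet.image c).insert _,
    fun R ρ hR B h h1 h2 => ?_⟩
  choose m1 h1 using h1
  choose m2 h2 using h2
  let d : c.support → R := fun j => ⟨c j, hR (.inr ⟨j, j.2, rfl⟩)⟩
  let b' : B := ∑ j : c.support, ⟨_, m2 (d j)⟩ * ⟨_, m1 (β j)⟩
  have e : c.sum (fun i a => a • algebraMap K K' (β i)) = b' := by
    simp [b', d, Finsupp.sum, Algebra.smul_def, ← c.support.sum_coe_sort]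
  refine ⟨e ▸ b'.2, fun hz => ?_⟩
  have : h b' = 0 := (congrArg h (Subtype.ext e.symm)).trans hz
  simp only [b', map_sum, map_mul, h1, h2, ← Algebra.smul_def] at this
  have := Fintype.linearIndependent_iff.1
    (β.linearIndependent.comp (fun j : c.support => (j : _)) Subtype.val_injective) _ this ⟨i, hi⟩
  have e2 : d ⟨i, hi⟩ * ⟨_, hR (mem_insert ..)⟩ = 1 :=
    Subtype.ext (mul_inv_cancel₀ (Finsupp.mem_support_iff.1 hi))
  simpa [this] using congrArg ρ e2

end

theorem redk : REDK := by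
  intro k k' K K' _ _ _ _ _ _ _ _ _ _ _ _ _ _ h S S' α _ A g hS hS' hg
  have := hS.to_subtype
  choose T1 f1 h1 using fun a => ex_fin (hg a)
  choose b hb b0 hs using fun s : S => h.gen s
  choose T2 f2 h2 using fun s => ex_ne (k := k) (hb s) (b0 s)
  choose T3 f3 h3 using fun s => ex_fin (A := (⊤ : Subalgebra k K)) (hs s)
  obtain ⟨w, hw⟩ := wex k k' (S' ∪ (⋃ a, T1 a) ∪ ⋃ s, T2 s ∪ T3 s)
    ((hS'.union (finite_iUnion f1)).union (finite_iUnion fun s => (f2 s).union (f3 s)))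
  simp only [union_subset_iff, iUnion_subset_iff] at hw
  obtain ⟨r, r1, r2⟩ := h.lift ⊤ w.W K (Subalgebra.val _) ((Algebra.ofId k K).comp w.ρ)
  obtain ⟨O, red, o1, o2⟩ := loc_ext _ r
  have a1 : ∀ f, ∃ hf, r ⟨algebraMap K K' f, hf⟩ = f := fun f =>
    ⟨Algebra.subset_adjoin (.inl ⟨f, trivial, rfl⟩), r1 ⟨f, trivial⟩ _⟩
  have a2 : ∀ c : w.W, ∃ hc, r ⟨algebraMap k' K' c, hc⟩ = algebraMap k K (w.ρ c) := fun c =>
    ⟨Algebra.subset_adjoin (.inr ⟨c, c.2, rfl⟩), r2 c _⟩
  refine ⟨w, O, red, fun s hs => ?_, hw.1.1, fun f => ?_, fun c => ?_,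
    fun a => h1 a _ (hw.1.2 a)⟩
  · obtain ⟨m, hm⟩ := h2 ⟨s, hs⟩ _ w.ρ (hw.2 _).1 _ r a1 a2
    have := O.mul_mem (o2 _ hm) (o1 ⟨_, h3 ⟨s, hs⟩ _ (hw.2 _).2⟩).1
    rwa [inv_mul_cancel_left₀ (b0 _)] at this
  · obtain ⟨m, hm⟩ := a1 f
    exact (o1 ⟨_, m⟩).imp fun _ e => e.trans hm
  · obtain ⟨m, hm⟩ := a2 c
    exact (o1 ⟨_, m⟩).imp fun _ e => e.trans hm

end Vale.Agent.P270L
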