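import Vale.Agent.P270L.T.Cbc

/-!
# P270L, block T: row USP
-/

open Set IntermediateField
open Vale.Agent.P297

noncomputable section

namespace Vale.Agent.P270L

namespace UspH

variable {k k' K K' : Type} [Field k] [Field k'] [Field K] [Field K'] [Algebra k k'] [Algebra k K]
  [Algebra k K'] [Algebra k' K'] [Algebra K K'] [IsScalarTower k K K'] [IsScalarTower k k' K']

variable (K K') in
/-- the ring generated by a chart and the place -/
abbrev aw {ι : Type} (x : ι → K) (w : Wp k k') (i : ι) : Subalgebra k K' :=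
  Algebra.adjoin k (algebraMap K K' '' ch k x i ∪ algebraMap k' K' '' w.W)

variable (K) in
/-- a reduction map -/
structure Rd (w : Wp k k') (O : Subalgebra k K') (R : K' → K) : Prop where
  hom : ∃ red : O →ₐ[k] K, ∀ f h, R f = red ⟨f, h⟩
  up : ∀ f, algebraMap K K' f ∈ O ∧ R (algebraMap K K' f) = f
  cst : ∀ c : w.W, algebraMap k' K' c ∈ O ∧ R (algebraMap k' K' c) = algebraMap k K (w.ρ c)

variable {w : Wp k k'} {O : Subalgebra k K'} {R : K' → K} {ι : Type} {x : ι → K}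

omit [IsScalarTower k K K'] [IsScalarTower k k' K']

theorem Rd.mul (r : Rd K w O R) {f g : K'} (hf : f ∈ O) (hg : g ∈ O) : R (f * g) = R f * R g := by
  obtain ⟨red, h⟩ := r.hom
  rw [h _ (mul_mem hf hg), h _ hf, h _ hg, ← map_mul]
  rfl

theorem Rd.add (r : Rd K w O R) {f g : K'} (hf : f ∈ O) (hg : g ∈ O) : R (f + g) = R f + R g := by
  obtain ⟨red, h⟩ := r.hom
  rw [h _ (add_mem hf hg), h _ hf, h _ hg, ← map_add]
  rfl

theorem Rd.one (r : Rd K w O R) : R 1 = 1 := by simpa using (r.up 1).2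

theorem Rd.sum (r : Rd K w O R) {σ : Type} [Fintype σ] {f : σ → K'} (hf : ∀ l, f l ∈ O) :
    R (∑ l, f l) = ∑ l, R (f l) := by
  obtain ⟨red, h⟩ := r.hom
  rw [h _ (sum_mem fun l _ => hf l), Finset.sum_congr rfl fun l _ => h _ (hf l), ← map_sum]
  congr 1
  ext
  simp

theorem Rd.le (r : Rd K w O R) (i : ι) : aw K K' x w i ≤ O :=
  Algebra.adjoin_le (by rintro _ (⟨a, -, rfl⟩ | ⟨c, hc, rfl⟩); exacts [(r.up a).1, (r.cst ⟨c, hc⟩).1])

theorem Rd.alg [IsScalarTower k K K'] (r : Rd K w O R) (c : k) :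
    R (algebraMap k K' c) = algebraMap k K c := by
  rw [IsScalarTower.algebraMap_apply k K K', (r.up _).2]

theorem Rd.mem [IsScalarTower k K K'] (r : Rd K w O R) {i : ι} {f : K'} (hf : f ∈ aw K K' x w i) :
    R f ∈ ch k x i := by
  induction hf using Algebra.adjoin_induction with
  | mem a ha =>
    rcases ha with ⟨a, ha, rfl⟩ | ⟨c, hc, rfl⟩
    · rwa [(r.up a).2]
    · rw [(r.cst ⟨c, hc⟩).2]; exact algebraMap_mem _ _
  | algebraMap c => rw [r.alg]; exact algebraMap_mem _ _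
  | add a b h1 h2 ha hb => rw [r.add (r.le i h1) (r.le i h2)]; exact add_mem ha hb
  | mul a b h1 h2 ha hb => rw [r.mul (r.le i h1) (r.le i h2)]; exact mul_mem ha hb

theorem aw_le [IsScalarTower k K K'] [IsScalarTower k k' K'] {i : ι} {f : K'}
    (hf : f ∈ aw K K' x w i) : f ∈ ch k' (up K' x) i := by
  induction hf using Algebra.adjoin_induction with
  | mem a ha =>
    rcases ha with ⟨a, ha, rfl⟩ | ⟨c, -, rfl⟩
    exacts [CbcH.up_mem ha, Subalgebra.algebraMap_mem _ c]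
  | algebraMap c =>
    rw [IsScalarTower.algebraMap_apply k k' K']
    exact Subalgebra.algebraMap_mem _ _
  | add a b _ _ ha hb => exact add_mem ha hb
  | mul a b _ _ ha hb => exact mul_mem ha hb

variable [IsScalarTower k K K'] [IsScalarTower k k' K'] [IsAlgClosed k] [IsAlgClosed k'] [CharZero k]

theorem ex_red (hS : SEMI) (h : BC k k' K K') [IsFF k K] (w : Wp k k') :
    ∃ (B : Subalgebra k K') (ρ : B →ₐ[k] K), (∀ a, ∃ m, ρ ⟨algebraMap K K' a, m⟩ = a) ∧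
      (∀ c : w.W, ∃ m, ρ ⟨algebraMap k' K' c, m⟩ = algebraMap k K (w.ρ c)) ∧
      ∀ (σ : Type) [Fintype σ] (z' : σ → B) (z : σ → K), (∀ l, ρ (z' l) = z l) → z ≠ 0 →
        ht k z ≤ ht k' fun l => (z' l : K') :=
  ⟨(HtbH.red h w).B, (HtbH.red h w).r (), fun a => ⟨_, HtbH.red_up h w a⟩,
    fun c => ⟨_, (HtbH.red h w).hr () c⟩, fun _ _ => HtbH.semi hS h w⟩

/-- the degree does not go up -/
theorem dg_le (hD : DG) (hS : SEMI) (r : Rd K w O R) {p : Cv k x} {p' : Cv k' (up K' x)}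
    (hp : p.Up p') {σ : Type} [Fintype σ] {u t : σ → K'} (hu : ∀ l, u l ∈ O) (ht : ∀ l, t l ∈ O)
    (h : ∀ j l, t j * u l ∈ aw K K' x w p.i) (h1 : ∑ j, t j * u j = 1) :
    (p.dg fun l => R (u l)) ≤ p'.dg u := by
  have : CharZero k' := charZero_of_injective_algebraMap (algebraMap k k').injective
  obtain ⟨_, _, _, _, bc, hi, hφ⟩ := hp
  have m : ∀ {f}, f ∈ aw K K' x w p.i → f ∈ ch k' (up K' x) p'.i := fun hf => hi ▸ aw_le hf
  obtain ⟨B, ρ, r1, r2, r3⟩ := ex_red hS bc w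
  have key : ∀ f (hf : f ∈ aw K K' x w p.i), ∃ hB : p'.φ ⟨f, m hf⟩ ∈ B,
      ρ ⟨_, hB⟩ = p.φ ⟨R f, r.mem hf⟩ := by
    intro f hf
    induction hf using Algebra.adjoin_induction with
    | mem a ha =>
      rcases ha with ⟨a, ha, rfl⟩ | ⟨c, hc, rfl⟩
      · simp only [hφ a ha, (r.up a).2]
        exact r1 _
      · have e : ∀ h, p'.φ ⟨algebraMap k' K' c, h⟩ = algebraMap k' p'.L c := fun _ =>
          p'.φ.commutes c
        have e' : ∀ h, p.φ ⟨algebraMap k K (w.ρ ⟨c, hc⟩), h⟩ = algebraMap k p.L (w.ρ ⟨c, hc⟩) :=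
          fun _ => p.φ.commutes _
        simp only [e, (r.cst ⟨c, hc⟩).2, e']
        exact r2 ⟨c, hc⟩
    | algebraMap c =>
      have e : ∀ h, p'.φ ⟨algebraMap k K' c, h⟩ = algebraMap k p'.L c := fun _ => by
        rw [IsScalarTower.algebraMap_apply k k' p'.L, ← p'.φ.commutes]
        congr 2
        exact IsScalarTower.algebraMap_apply k k' K' c
      have e' : ∀ h, p.φ ⟨algebraMap k K c, h⟩ = algebraMap k p.L c := fun _ => p.φ.commutes _
      simp only [e, r.alg, e']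
      exact ⟨algebraMap_mem _ c, ρ.commutes c⟩
    | add a b h1 h2 ha hb =>
      obtain ⟨ha, ea⟩ := ha
      obtain ⟨hb, eb⟩ := hb
      have e := map_add p'.φ ⟨a, m h1⟩ ⟨b, m h2⟩
      have e' := map_add p.φ ⟨_, r.mem h1⟩ ⟨_, r.mem h2⟩
      have e'' := map_add ρ ⟨_, ha⟩ ⟨_, hb⟩
      simp only [AddMemClass.mk_add_mk] at e e' e''
      simp only [e, r.add (r.le _ h1) (r.le _ h2), e']
      exact ⟨add_mem ha hb, e''.trans (by rw [ea, eb])⟩
    | mul a b h1 h2 ha hb =>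
      obtain ⟨ha, ea⟩ := ha
      obtain ⟨hb, eb⟩ := hb
      have e := map_mul p'.φ ⟨a, m h1⟩ ⟨b, m h2⟩
      have e' := map_mul p.φ ⟨_, r.mem h1⟩ ⟨_, r.mem h2⟩
      have e'' := map_mul ρ ⟨_, ha⟩ ⟨_, hb⟩
      simp only [MulMemClass.mk_mul_mk] at e e' e''
      simp only [e, r.mul (r.le _ h1) (r.le _ h2), e']
      exact ⟨mul_mem ha hb, e''.trans (by rw [ea, eb])⟩
  obtain ⟨j, hj⟩ : ∃ j, p.φ ⟨_, r.mem (h j j)⟩ ≠ 0 := by
    by_contra c
    push Not at c
    have e : ∑ j, (⟨_, r.mem (h j j)⟩ : ch k x p.i) = 1 := Subtype.ext (by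
      simp [← r.sum fun j => r.le _ (h j j), h1, r.one])
    simpa [c] using congrArg p.φ e
  choose hB hr using fun l => key _ (h j l)
  have z0 : (fun l => p.φ ⟨_, r.mem (h j l)⟩) ≠ 0 := Function.ne_iff.2 ⟨j, hj⟩
  have z1 : (fun l => p'.φ ⟨_, m (h j l)⟩) ≠ 0 := Function.ne_iff.2 ⟨j, fun c => hj (by
    rw [← hr j, ← map_zero ρ]
    congr 1
    exact Subtype.ext c)⟩
  rw [hD.eq k K ι σ x p _ _ ⟨z0, R (t j), fun l => r.mul (ht j) (hu l) ▸ r.mem (h j l),
      fun l => by simp only [r.mul (ht j) (hu l)]⟩,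
    hD.eq k' K' ι σ _ p' _ _ ⟨z1, t j, fun l => m (h j l), fun _ => rfl⟩]
  exact r3 σ (fun l => ⟨_, hB l⟩) _ hr z0

/-- a reduction which is defined on a finite set -/
theorem ex_rd (hR : REDK) (h : BC k k' K K') [Finite ι] (x : ι → K) {T : Set K'} (hT : T.Finite) :
    ∃ (w : Wp k k') (O : Subalgebra k K') (R : K' → K), Rd K w O R ∧ T ⊆ O ∧
      ∀ i, ∀ f ∈ T, f ∈ ch k' (up K' x) i → f ∈ aw K K' x w i := by
  classical
  have := hT.to_subtype
  have : Finite {q : ι × T // (q.2 : K') ∈ ch k' (up K' x) q.1} := inferInstance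
  obtain ⟨w, O, red, h1, -, h2, h3, h4⟩ := hR k k' K K' h T ∅
    {q : ι × T // (q.2 : K') ∈ ch k' (up K' x) q.1} (fun q => ch k x q.1.1) (fun q => q.1.2) hT
    finite_empty fun q => by rw [← ch_up]; exact q.2
  refine ⟨w, O, fun f => if hf : f ∈ O then red ⟨f, hf⟩ else 0, ⟨⟨red, fun f hf => dif_pos hf⟩,
    fun f => ?_, fun c => ?_⟩, h1, fun i f hf hc => h4 ⟨(i, ⟨f, hf⟩), hc⟩⟩
  · obtain ⟨a, b⟩ := h2 f
    exact ⟨a, (dif_pos a).trans b⟩
  · obtain ⟨a, b⟩ := h3 c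
    exact ⟨a, (dif_pos a).trans b⟩

end UspH

open UspH in
/-- row USP -/
theorem usp_of (hD : DG) (hR : REDK) (hS : SEMI) (hH : HTB) : USP := by
  intro k k' K K' _ _ _ _ _ _ _ _ _ _ _ _ _ _ h ι σ _ _ x u c hx hu
  classical
  have : CharZero k' := charZero_of_injective_algebraMap (algebraMap k k').injective
  have hx' : ∀ i, up K' x i ≠ 0 := fun i => by simpa [up] using hx i
  obtain ⟨σ', _, v, d, hc⟩ := hD.cmp k' K' ι σ _ u hx' hu
  obtain ⟨-, hv, hadd'⟩ := hD.add k' K' ι σ σ' _ u v d hx' hc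
  choose t ht ht1 using hu
  choose s hs hs1 using hv
  choose hc1 a ha ha1 using hc
  obtain ⟨e, he, he1⟩ : ∃ e : ι → σ → K', (∀ i l, e i l ∈ ch k' (up K' x) i) ∧
      (Eff k' (up K' x) ⟨σ, u, c⟩ → ∀ i, ∑ l, e i l * u l = up K' x i ^ c) := by
    by_cases hE : Eff k' (up K' x) ⟨σ, u, c⟩
    · choose e he using fun i => (Submodule.mem_span_range_iff_exists_fun _).1 (hE i)
      exact ⟨fun i l => e i l, fun i l => (e i l).2, fun _ => he⟩
    · exact ⟨0, fun _ _ => zero_mem _, fun c => absurd c hE⟩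
  obtain ⟨w, O, R, r, hO, hA⟩ := ex_rd hR h x (T := range u ∪ range v ∪ range t.uncurry ∪
      range s.uncurry ∪ range e.uncurry ∪ range (fun q : ι × σ × σ => t q.1 q.2.1 * u q.2.2) ∪
      range (fun q : ι × σ' × σ' => s q.1 q.2.1 * v q.2.2) ∪
      range (fun q : ι × σ × σ' => a q.1 q.2.1 q.2.2) ∪
      range (fun q : ι × σ × σ' => u q.2.1 * v q.2.2 / up K' x q.1 ^ d)) (toFinite _)
  simp only [union_subset_iff, range_subset_iff, Prod.forall, Function.uncurry_apply_pair,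
    SetLike.mem_coe, mem_union, or_imp, forall_and, forall_mem_range] at hO hA
  obtain ⟨⟨⟨⟨⟨⟨⟨⟨o1, o2⟩, o3⟩, o4⟩, -⟩, -⟩, -⟩, -⟩, -⟩ := hO
  obtain ⟨⟨⟨⟨⟨-, a1⟩, a2⟩, a3⟩, a4⟩, a5⟩ := hA
  have e1 : ∀ i l m, R (u l * v m / up K' x i ^ d) = R (u l) * R (v m) / x i ^ d := fun i l m => by
    rw [up, ← map_pow, div_eq_mul_inv, ← map_inv₀, r.mul (mul_mem (o1 l) (o2 m)) (r.up _).1,
      r.mul (o1 l) (o2 m), (r.up _).2, div_eq_mul_inv]
  have hc : Cmp k x (fun l => R (u l)) (fun l => R (v l)) d := fun i => by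
    have b4 := fun l m => a4 i i l m (ha i l m)
    have b5 := fun l m => a5 i i l m (hc1 i l m)
    refine ⟨fun l m => e1 i l m ▸ r.mem (b5 l m), fun l m => R (a i l m), fun l m => r.mem (b4 l m),
      ?_⟩
    rw [← r.one, ← ha1 i, r.sum fun l => sum_mem fun m _ => r.le i (mul_mem (b4 l m) (b5 l m))]
    refine Finset.sum_congr rfl fun l _ => ?_
    rw [r.sum fun m => r.le i (mul_mem (b4 l m) (b5 l m))]
    exact Finset.sum_congr rfl fun m _ => by rw [r.mul (r.le i (b4 l m)) (r.le i (b5 l m)), e1]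
  obtain ⟨hu, -, hadd⟩ := hD.add k K ι σ σ' x _ _ d hx hc
  refine ⟨_, hu, fun hE i => ?_, fun p p' hp => ?_⟩
  · have b1 := fun l => a1 i i l (he i l)
    have e2 := congrArg R (he1 hE i)
    rw [up, ← map_pow, (r.up _).2, r.sum fun l => mul_mem (r.le i (b1 l)) (o1 l)] at e2
    refine e2 ▸ Submodule.sum_mem _ fun l _ => ?_
    rw [r.mul (r.le i (b1 l)) (o1 l)]
    exact Submodule.smul_mem _ (⟨_, r.mem (b1 l)⟩ : ch k x i) (Submodule.subset_span ⟨l, rfl⟩)
  · have h1 := dg_le hD hS r hp o1 (o3 p.i) (fun j l => a2 _ _ j l (ht _ j l)) (ht1 _)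
    have h2 := dg_le hD hS r hp o2 (o4 p.i) (fun j l => a3 _ _ j l (hs _ j l)) (hs1 _)
    have h3 := hadd p
    have h4 := hadd' p'
    have fx : Free k x x := fun i => ⟨Pi.single i (x i)⁻¹, fun j l => by
      by_cases c : j = i
      · subst c
        rw [Pi.single_eq_same, inv_mul_eq_div]
        exact Algebra.subset_adjoin ⟨l, rfl⟩
      · simp [c], by
      rw [Finset.sum_eq_single i (fun j _ c => by simp [c]) (by simp)]
      simp [hx i]⟩
    rw [CbcH.up_dg hD hH hp fx] at h4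
    omega

end Vale.Agent.P270L
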