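import Vale.Agent.P270L.T.Abh
import Vale.Agent.P270L.T.Cbc
import Vale.Agent.P270L.T.Der
import Vale.Agent.P270L.T.Dg
import Vale.Agent.P270L.T.Emb
import Vale.Agent.P270L.T.Exd
import Vale.Agent.P270L.T.Gau
import Vale.Agent.P270L.T.Good
import Vale.Agent.P270L.T.Hg
import Vale.Agent.P270L.T.Htb
import Vale.Agent.P270L.T.Hyb
import Vale.Agent.P270L.T.Klb
import Vale.Agent.P270L.T.Ldn
import Vale.Agent.P270L.T.Mdu
import Vale.Agent.P270L.T.Pres
import Vale.Agent.P270L.T.Redk
import Vale.Agent.P270L.T.Semi
import Vale.Agent.P270L.T.Spec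
import Vale.Agent.P270L.T.Usp
import Vale.Agent.P270L.T.Wex

/-!
# P270L, block T: the Lefschetz principle for `FF`
-/

namespace Vale.Agent.P270L

theorem semi : SEMI := semi_of hg

theorem htb : HTB := htb_of wex semi

theorem spec : SPEC := spec_of hg dg semi (good_of wex)

theorem cbc : CBC := cbc_of dg exu htb

theorem usp : USP := usp_of dg redk semi htb

theorem pres : PRES := pres_of der

theorem fru : FRU := fru_of der lin

theorem ldn : LDN := ldn_of lin

theorem klb : KLB := klb_of der pres fru abh gau

theorem trans : TRANS :=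
  trans_of der emb exu exd fru (hyb_of der mdu ldn klb spec cbc usp) (cob_of ldn spec cbc usp)

end Vale.Agent.P270L
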