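import Vale.Agent.P270L.T.Plc
import Mathlib.RingTheory.AlgebraicIndependent.TranscendenceBasis
import Mathlib.Combinatorics.Matroid.Rank.ENat

/-!
# P270L, block T: the row `ABH`
-/

open Set MvPolynomial AlgebraicIndependent
open Vale.Agent.P297 (Place)

namespace Vale.Agent.P270L

namespace AbhH

variable {k k' K K' : Type} [Field k] [Field k'] [Field K] [Field K'] [Algebra k k'] [Algebra k K]
  [Algebra k K'] [Algebra k' K'] [Algebra K K'] [IsScalarTower k K K'] [IsScalarTower k k' K']

/-- independent residues have independent lifts -/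
theorem lift {κ C I : Type} [Field κ] [Algebra k' κ] [CommRing C] [Algebra C κ] {P : Place K'}
    {O : Subalgebra k' K'} (hO : ∀ f, f ∈ O ↔ f ∈ P.ring) (r : O →ₐ[k'] κ)
    (hC : ∀ f h, r ⟨algebraMap K K' f, h⟩ ∈ range (algebraMap C κ)) {u : I → O}
    (hu : AlgebraicIndependent C fun i => r (u i)) : AlgebraicIndependent K fun i => (u i : K') := by
  classical
  refine algebraicIndependent_iff.2 fun F hF => by_contra fun F0 => ?_
  obtain ⟨m, m1, m2⟩ := F.support.exists_max_image (fun m => P.val (algebraMap K K' (F.coeff m)))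
    (support_nonempty.2 F0)
  have c0 : algebraMap K K' (F.coeff m) ≠ 0 := (map_ne_zero _).2 (mem_support_iff.1 m1)
  have ha : ∀ l, algebraMap K K' (F.coeff l / F.coeff m) ∈ O := fun l => by
    rw [hO, P.mem_ring_iff, map_div₀, map_div₀, div_le_one₀ ((Valuation.pos_iff _).2 c0)]
    by_cases h : l ∈ F.support
    · exact m2 l h
    · simp [notMem_support_iff.1 h]
  choose b hb using fun l => hC _ (ha l)
  have e : r (∑ l ∈ F.support, ⟨_, ha l⟩ * ∏ i ∈ l.support, u i ^ l i) = 0 := by
    convert map_zero r
    rw [aeval_def, eval₂_eq] at hF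
    refine Subtype.ext (mul_left_cancel₀ c0 ?_)
    push_cast
    rw [mul_zero, ← hF, Finset.mul_sum]
    exact Finset.sum_congr rfl fun l _ => by rw [map_div₀]; field_simp
  have := congrArg (fun G => algebraMap C κ (coeff m G)) (algebraicIndependent_iff.1 hu
    (∑ l ∈ F.support, monomial l (b l)) (by
      simpa only [map_sum, aeval_monomial, hb, map_mul, map_prod, map_pow, Finsupp.prod] using e))
  simp only [coeff_sum, coeff_monomial, Finset.sum_ite_eq', m1, if_true, hb, coeff_zero, map_zero,
    div_self (mem_support_iff.1 m1), map_one] at this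
  exact one_ne_zero ((map_one r).symm.trans this)

/-- everything is algebraic over `K` and a transcendence basis of the constants -/
theorem alg (h : BC k k' K K') {Λ : Set k'} (hΛ : IsTranscendenceBasis k ((↑) : Λ → k')) (f : K') :
    f ∈ (matroid K K').closure (algebraMap k' K' '' Λ) := by
  rw [matroid_closure_eq]
  set A := Algebra.adjoin K (algebraMap k' K' '' Λ)
  have h1 : ∀ c, IsAlgebraic A (algebraMap k' K' c) := fun c =>
    (hΛ.isAlgebraic.isAlgebraic c).ringHom_of_comp_eq (((algebraMap k' K').comp
      (Subalgebra.val _).toRingHom).codRestrict A fun ⟨a, ha⟩ => by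
        show algebraMap k' K' a ∈ A
        induction ha using Algebra.adjoin_induction with
        | mem a ha => obtain ⟨a, rfl⟩ := ha; exact Algebra.subset_adjoin ⟨a, a.2, rfl⟩
        | algebraMap a =>
          rw [← IsScalarTower.algebraMap_apply, IsScalarTower.algebraMap_apply k K]
          exact A.algebraMap_mem _
        | add a b _ _ ha hb => rw [map_add]; exact add_mem ha hb
        | mul a b _ _ ha hb => rw [map_mul]; exact mul_mem ha hb) (algebraMap k' K')
      (fun a b e => Subtype.ext ((algebraMap k' K').injective (congrArg Subtype.val e))) rfl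
  have h2 : ∀ b ∈ ex k' K K' univ, IsAlgebraic A b := fun b hb => by
    induction hb using Algebra.adjoin_induction with
    | mem a ha =>
      obtain ⟨a, -, rfl⟩ := ha
      exact isAlgebraic_algebraMap (⟨_, A.algebraMap_mem a⟩ : A)
    | algebraMap a => exact h1 a
    | add a b _ _ ha hb => exact ha.add hb
    | mul a b _ _ ha hb => exact ha.mul hb
  obtain ⟨b, b1, b0, b2⟩ := h.gen f
  have := (h2 b b1).inv.mul (h2 _ b2)
  rwa [inv_mul_cancel_left₀ b0] at this

end AbhH

open AbhH PlH in
/-- **ABH** -/
theorem abh : ABH := by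
  intro k k' K K' _ _ _ _ _ _ _ _ _ _ _ _ _ _ hB n P' ⟨hk, d, w, hd, hw, hF⟩
  refine or_iff_not_imp_left.2 fun h => ?_
  obtain ⟨P, e, e0, hP, he⟩ := ex_res P' h
  obtain ⟨κ, _, _, O, r, hO, hr⟩ := ex_rf P' hk
  let _ : Algebra k κ := ((algebraMap k' κ).comp (algebraMap k k')).toAlgebra
  have : IsScalarTower k k' κ := .of_algebraMap_eq' rfl
  have hk' : ∀ a, algebraMap K K' (algebraMap k K a) = algebraMap k' K' (algebraMap k k' a) :=
    fun a => by rw [← IsScalarTower.algebraMap_apply, ← IsScalarTower.algebraMap_apply]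
  refine ⟨P, e, e0, ⟨fun a => by rw [← hP, hk']; exact hk _, ?_⟩, he⟩
  obtain ⟨T, hT⟩ := (matroid k κ).exists_isBasis {z | ∃ f h, r ⟨algebraMap K K' f, h⟩ = z}
  have key : (d : ℕ∞) ≤ T.encard := by
    obtain ⟨Λ, hΛ⟩ := exists_isTranscendenceBasis k k'
    obtain ⟨L, L1, L2, -, L3⟩ := Matroid.exists_subset_finite_closure_of_subset_closure
      (finite_range w) fun f _ => alg hB hΛ f
    obtain ⟨Λ', L4, rfl⟩ := subset_image_iff.1 L1
    let u : Fin d ⊕ Λ' → O := Sum.elim (fun j => ⟨w j, (hO _).2 (hw j)⟩) fun c => algebraMap k' O c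
    have hv : AlgebraicIndependent k fun i => r (u i) := by
      convert sumElim_comp (hΛ.1.mono L4) (y := fun j => r (u (.inl j)))
        (algebraicIndependent_iff.2 fun F h => by_contra fun F0 => ?_) with i
      · rcases i with i | i <;> simp [u]
      · refine (hr (aeval (fun j => u (.inl j)) F)).2 ?_ ((comp_aeval_apply ..).trans h)
        exact (congrArg P'.val (comp_aeval_apply _ O.val F)).trans (hF F F0)
    obtain ⟨J, J1, J2⟩ := hT.indep.subset_isBasis_of_subset
      (subset_union_left (t := range fun i => r (u i)))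
    have i1 := (matroid_indep_iff.2 hv.to_subtype_range).encard_le_eRk_of_subset
      (subset_union_right (s := T))
    have hI := (J1.indep.adjoin_of_disjoint (s := {i | i.1 ∈ T}) (t := {i | i.1 ∉ T})
      disjoint_compl_right).subalgebraAlgebraicClosure
    choose j hj using fun i : {i : J | i.1 ∉ T} => (J1.subset i.1.2).resolve_left i.2
    have hu := lift (K := K) hO r (u := fun i => u (j i)) ?_ (by simp only [hj]; exact hI)
    swap
    · refine fun f h => ⟨⟨_, ?_⟩, rfl⟩
      rw [show (fun i : J => id i.1) '' {i : J | i.1 ∈ T} = T from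
        (Subtype.image_preimage_coe J T).trans (inter_eq_right.2 J2)]
      exact (matroid_isBasis_iff.1 hT).2.2 _ ⟨f, h, rfl⟩
    have i2 := (matroid_indep_iff.2 hu.to_subtype_range).encard_le_eRk_of_subset
      (X := (matroid K K').closure (algebraMap k' K' '' Λ')) (by
        rintro _ ⟨i, rfl⟩
        show (u (j i) : K') ∈ _
        rcases j i with a | a
        · exact L3 ⟨a, rfl⟩
        · exact (matroid K K').subset_closure _ (subset_univ _) ⟨a, a.2, rfl⟩)
    rw [Matroid.eRk_closure_eq] at i2
    have i3 := (hu.injective.encard_range.trans i2).trans (Matroid.eRk_le_encard _ _)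
    rw [← J1.encard_eq_eRk, ← encard_sdiff_add_encard_of_subset J2] at i1
    rw [(algebraMap k' K').injective.encard_image] at i3
    have i4 := hv.injective.encard_range.trans i1
    rw [ENat.card_coe_set_eq, ← Subtype.val_injective.encard_image,
      show Subtype.val '' {i : J | i.1 ∉ T} = J \ T from Subtype.image_preimage_coe J Tᶜ] at i3
    rw [ENat.card_sum, ENat.card_coe_set_eq, ENat.card_eq_coe_fintype_card, Fintype.card_fin,
      add_comm _ T.encard] at i4
    exact (ENat.add_le_add_iff_right (L2.of_finite_image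
      (algebraMap k' K').injective.injOn).encard_lt_top.ne).1 (i4.trans (add_le_add le_rfl i3))
  obtain ⟨g, g1, g2⟩ := (finite_univ (α := Fin d)).exists_injOn_of_encard_le (t := T)
    (by simpa using key)
  choose f h1 h2 using fun j => hT.subset (g1 (mem_univ j))
  refine ⟨d, f, hd, fun j => (hP _).1 ((hO _).1 (h1 j)), fun F F0 => ?_⟩
  have := (hr (aeval (fun j => ⟨_, h1 j⟩) (map (algebraMap k k') F))).1 (by
    rw [comp_aeval_apply, aeval_map_algebraMap]
    simp only [h2]
    exact fun c => F0 (algebraicIndependent_iff.1 (hT.indep.comp (fun j => ⟨g j, g1 (mem_univ j)⟩)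
      fun a b c => g2 trivial trivial (congrArg Subtype.val c)) F c))
  rw [show ((aeval (fun j => ⟨_, h1 j⟩) (map (algebraMap k k') F) : O) : K') = _ from
    comp_aeval_apply _ O.val _, aeval_map_algebraMap] at this
  erw [← comp_aeval_apply f (IsScalarTower.toAlgHom k K K')] at this
  rw [val_one] at this ⊢
  simpa only [IsScalarTower.coe_toAlgHom', ← map_inv₀, hP, map_ne_zero] using this

end Vale.Agent.P270L
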