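import Vale.Agent.P270L.T.Dg

/-!
# P270L, block T, row SPEC: curves specialise
-/

open Set Function IntermediateField
open Vale.Agent.P297

namespace Vale.Agent.P270L

namespace SpecH

variable {k k' K K' ι : Type} [Field k] [Field k'] [Field K] [Field K'] [Algebra k k'] [Algebra k K]
  [Algebra k K'] [Algebra k' K'] [Algebra K K'] [IsScalarTower k K K'] [IsScalarTower k k' K']
  {x : ι → K}

theorem cst (a : k) : algebraMap K K' (algebraMap k K a) = algebraMap k' K' (algebraMap k k' a) := by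
  rw [← IsScalarTower.algebraMap_apply, ← IsScalarTower.algebraMap_apply]

theorem um {i : ι} {f : K} (h : f ∈ ch k x i) : algebraMap K K' f ∈ ch k' (up K' x) i := by
  induction h using Algebra.adjoin_induction with
  | mem f h => exact h.elim fun j e => e ▸ map_div₀ (algebraMap K K') (x j) _ ▸ DgH.gen _ j i
  | algebraMap r => exact cst (k' := k') (K := K) (K' := K') r ▸ algebraMap_mem _ _
  | add f g _ _ hf hg => exact map_add (algebraMap K K') f g ▸ add_mem hf hg
  | mul f g _ _ hf hg => exact map_mul (algebraMap K K') f g ▸ mul_mem hf hg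

theorem cmp_up {σ σ' : Type} [Fintype σ] [Fintype σ'] {s : σ → K} {s' : σ' → K} {c : ℕ}
    (h : Cmp k x s s' c) : Cmp k' (up K' x) (up K' s) (up K' s') c := fun i =>
  let ⟨h1, a, h2, h3⟩ := h i
  ⟨fun l m => by simpa [up] using um (k' := k') (K' := K') (h1 l m), fun l m => _,
    fun l m => um (h2 l m), by simpa [up] using congrArg (algebraMap K K') h3⟩

/-- the restriction of a point to the small chart -/
def dn (p : Cv k' (up K' x)) [Algebra k p.L] [IsScalarTower k k' p.L] : ch k x p.i →ₐ[k] p.L where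
  toFun f := p.φ ⟨_, um f.2⟩
  map_one' := (congrArg _ (Subtype.ext (map_one _))).trans (map_one _)
  map_mul' f g := (congrArg _ (Subtype.ext (map_mul _ _ _))).trans
    (map_mul p.φ ⟨_, um f.2⟩ ⟨_, um g.2⟩)
  map_zero' := (congrArg _ (Subtype.ext (map_zero _))).trans (map_zero _)
  map_add' f g := (congrArg _ (Subtype.ext (map_add _ _ _))).trans
    (map_add p.φ ⟨_, um f.2⟩ ⟨_, um g.2⟩)
  commutes' r := ((congrArg _ (Subtype.ext (cst r))).trans (p.φ.commutes _)).trans
    (IsScalarTower.algebraMap_apply _ _ _ _).symm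

theorem ht_pair {L : Type} [Field L] [Algebra k L] [IsAlgClosed k] [CharZero k] [IsFF k L]
    {a b : L} (h : b ≠ 0) : ht k ![b, a] = ht k ![1, a / b] := by
  rw [← hg.smul k L inferInstance _ ![1, a / b] b h]
  congr 1
  ext l
  fin_cases l <;> simp [mul_div_cancel₀, h]

theorem rx (hx : ∀ i, x i ≠ 0) (p : Cv k x) : p.Rs x fun j => p.φ ⟨_, DgH.gen x j p.i⟩ :=
  ⟨ne_iff.2 ⟨p.i, ((congrArg p.φ (Subtype.ext (div_self (hx _)))).trans (map_one _)).trans_ne
    one_ne_zero⟩, (x p.i)⁻¹, fun o => div_eq_inv_mul (x o) _ ▸ DgH.gen x o p.i,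
    fun _ => congrArg _ (Subtype.ext (div_eq_inv_mul _ _))⟩

end SpecH

open SpecH in
/-- row SPEC -/
theorem spec_of (hH : HG) (hD : DG) (hS : SEMI) (hG : GOOD) : SPEC := by
  intro k k' K K' _ _ _ _ _ _ _ _ _ _ _ _ _ _ _ ι _ x hx p'
  classical
  have : CharZero k' := charZero_of_injective_algebraMap (algebraMap k k').injective
  have : Infinite k := .of_injective _ Nat.cast_injective
  let _ : Algebra k p'.L := ((algebraMap k' p'.L).comp (algebraMap k k')).toAlgebra
  have : IsScalarTower k k' p'.L := .of_algebraMap_eq' rfl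
  have hx' : ∀ i, up K' x i ≠ 0 := fun i => by simpa [up] using hx i
  have r1 := rx hx' p'
  let y : ι → p'.L := fun j => dn (k := k) p' ⟨_, DgH.gen x j p'.i⟩
  replace r1 : p'.Rs (up K' x) y := by
    convert r1 with j
    exact congrArg _ (Subtype.ext (map_div₀ _ _ _))
  suffices ∃ (J : Type) (_ : Fintype J) (p : J → Cv k x), p'.dg (up K' x) ≤ ∑ j, (p j).dg x ∧
      ∀ (σ : Type) [Fintype σ] (s : σ → K), Free k x s → ∑ j, (p j).dg s ≤ p'.dg (up K' s) by
    obtain ⟨J, _, p, h1, h2⟩ := this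
    refine ⟨J, inferInstance, p, fun σ _ s hs => (h2 σ s hs).antisymm' ?_⟩
    obtain ⟨σ', _, s', c, hc⟩ := hD.cmp k K ι σ x s hx hs
    obtain ⟨-, a2, a3⟩ := hD.add k K ι σ σ' x s s' c hx hc
    have a4 := (hD.add k' K' ι σ σ' _ _ _ c hx' (cmp_up hc)).2.2 p'
    have a5 := Finset.sum_congr rfl fun j (_ : j ∈ Finset.univ) => a3 (p j)
    rw [Finset.sum_add_distrib, ← Finset.mul_sum] at a5
    linarith [h2 σ' s' a2, mul_le_mul_of_nonneg_left h1 (Nat.cast_nonneg (α := ℤ) c)]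
  obtain ⟨a, b, hab⟩ := hH.gen k k' Unit ι (fun _ => p'.L) (fun _ => y) fun _ => r1.1
  obtain ⟨b0, e⟩ := hab ()
  have sm : ∀ (c : k) (v : p'.L), algebraMap k k' c • v = c • v := fun c v => algebraMap_smul _ _ _
  simp only [sm] at b0 e
  rw [ht_pair b0, ← hD.eq k' K' ι ι _ p' _ y r1] at e
  rcases const_or_transcendental (k := k') ((∑ l, a l • y l) / ∑ l, b l • y l) with ⟨c, hc⟩ | ht
  · refine ⟨Empty, inferInstance, Empty.elim, ?_, fun σ _ s hs => ?_⟩
    · rw [← e, hc, ht, finsum_eq_zero_of_forall_eq_zero fun P => ?_]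
      · simp
      · rw [HgH.mx_eq P.1 (l := 0) fun m => by
          fin_cases m <;> simp [(P.1.mem_ring_iff _).1 (P.2 c)]]
        simp
    · rw [Cv.dg, Finset.sum_of_isEmpty]
      split_ifs
      exacts [hH.nn k' _ inferInstance _ _, le_rfl]
  obtain ⟨R, t1, t2, t3, t4⟩ := hG k k' p'.L _ ht (IsFF.finiteDimensional ht)
    (insert (∑ l, b l • y l)⁻¹ (range y)) ((finite_range y).insert _)
  have ff : ∀ j, IsFF k (R.L j) := fun j => .of_finiteDimensional (t3 j).1 (t3 j).2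
  have yB : ∀ j, y j ∈ R.B := fun j => t2 (.inr ⟨j, rfl⟩)
  have hB : ∀ f, dn (k := k) p' f ∈ R.B := fun ⟨f, hf⟩ => by
    induction hf using Algebra.adjoin_induction with
    | mem f h => obtain ⟨j, rfl⟩ := h; exact yB j
    | algebraMap r => exact ((dn p').commutes r).symm ▸ R.B.algebraMap_mem r
    | add f g c d hf hg => exact (map_add (dn p') ⟨f, c⟩ ⟨g, d⟩).symm ▸ add_mem hf hg
    | mul f g c d hf hg => exact (map_mul (dn p') ⟨f, c⟩ ⟨g, d⟩).symm ▸ mul_mem hf hg
  let p : R.J → Cv k x := fun j => ⟨R.L j, p'.i, (R.r j).comp ((dn p').codRestrict R.B hB)⟩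
  refine ⟨R.J, inferInstance, p, ?_, fun σ _ s hs => ?_⟩
  · rw [← e, hH.deg k' _ inferInstance _ ht, ← t4, Nat.cast_sum]
    refine Finset.sum_le_sum fun j _ => ?_
    have sp : ∀ c : ι → k, ∑ l, c l • y l ∈ R.B := fun c => sum_mem fun l _ => R.B.smul_mem (yB l) _
    have b1 : R.r j ⟨_, sp b⟩ ≠ 0 := left_ne_zero_of_mul_eq_one (b := R.r j ⟨_, t2 (.inl rfl)⟩) (by
      rw [← map_mul, ← map_one (R.r j)]
      exact congrArg _ (Subtype.ext (mul_inv_cancel₀ b0)))
    have b2 : R.r j ⟨_, t1⟩ = R.r j ⟨_, sp a⟩ / R.r j ⟨_, sp b⟩ := by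
      rw [eq_div_iff b1, ← map_mul]
      exact congrArg _ (Subtype.ext (div_mul_cancel₀ _ b0))
    have b3 : ∀ c, R.r j ⟨_, sp c⟩ ∈ Submodule.span k (range fun l => R.r j ⟨_, yB l⟩) := fun c => by
      rw [show (⟨_, sp c⟩ : R.B) = ∑ l, c l • ⟨_, yB l⟩ from Subtype.ext (by simp), map_sum]
      exact sum_mem fun l _ => map_smul (R.r j) (c l) _ ▸
        Submodule.smul_mem _ _ (Submodule.subset_span ⟨l, rfl⟩)
    rw [← hH.deg k _ (ff j) _ (t3 j).1, b2, ← ht_pair b1, hD.eq k K ι ι x (p j) x _ (rx hx (p j))]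
    exact hH.le k _ (ff j) _ _ _ _ (ne_iff.2 ⟨0, b1⟩) fun l => by fin_cases l <;> exact b3 _
  obtain ⟨t, s1, s2⟩ := hs p'.i
  have ex : ∀ j, ∃ m, (p j).φ ⟨_, s1 m m⟩ ≠ 0 := fun j => by
    by_contra! c
    have := Finset.sum_eq_zero fun m (_ : m ∈ Finset.univ) => c m
    rw [← map_sum, show (∑ j, ⟨_, s1 j j⟩ : ch k x p'.i) = 1 from Subtype.ext (by simpa using s2),
      map_one] at this
    exact one_ne_zero this
  choose m hm using ex
  obtain ⟨c, hc⟩ := Submodule.exists_forall_notMem_of_forall_ne_top (K := k) (fun j =>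
    LinearMap.ker (Fintype.linearCombination k fun l => (p j).φ ⟨_, s1 l (m j)⟩)) fun j c =>
      hm j (by simpa using (Submodule.eq_top_iff'.1 c (Pi.single (m j) 1)))
  have s3 : ∀ l, (∑ o, c o • t o) * s l ∈ ch k x p'.i := fun l => by
    simpa only [Finset.sum_mul, smul_mul_assoc] using
      sum_mem fun o (_ : o ∈ Finset.univ) => Subalgebra.smul_mem _ (s1 o l) (c o)
  have s4 : ∀ j, (fun l => (p j).φ ⟨_, s3 l⟩) ≠ 0 := fun j => ne_iff.2 ⟨m j, fun e => hc j (by
    rw [LinearMap.mem_ker, Fintype.linearCombination_apply]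
    simp only [← map_smul, ← map_sum]
    exact (congrArg _ (Subtype.ext (by simp [Finset.sum_mul]))).trans e)⟩
  obtain ⟨j₀⟩ : Nonempty R.J := by
    by_contra! c
    have := IsFF.finiteDimensional ht
    exact Module.finrank_pos.ne (by simpa using t4)
  rw [hD.eq k' K' ι σ _ p' (up K' s) (fun l => dn p' ⟨_, s3 l⟩) ⟨fun e => s4 j₀ (funext fun l =>
      (congrArg (R.r j₀) (Subtype.ext (congrFun e l))).trans (map_zero _)), algebraMap K K' _,
      fun l => map_mul (algebraMap K K') _ (s l) ▸ um (s3 l),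
      fun l => congrArg p'.φ (Subtype.ext (map_mul (algebraMap K K') _ _))⟩,
    Finset.sum_congr rfl fun j _ => hD.eq k K ι σ x (p j) s _ ⟨s4 j, _, s3, fun _ => rfl⟩]
  exact hS k k' p'.L R ff σ (fun l => ⟨_, hB ⟨_, s3 l⟩⟩) s4

end Vale.Agent.P270L
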